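import Crest.Agent.Lib.PT.Fold

/-!
Words, booleans, propositions, unary numbers and counted loops in polynomial time.
-/

set_option autoImplicit false

namespace Crest.Agent.PT

open Function Crest.Agent.PT.Rp

attribute [fun_prop] PTime
attribute [fun_prop] PTime.id PTime.const PTime.comp PTime.fst PTime.snd PTime.pair PTime.cond

/-- Unary numbers. -/
structure Un where
  val : ℕ

instance : Rp Un := ⟨Unit, fun u _ => List.replicate u.val true⟩
instance : Rp ℕ := ⟨Unit, fun n _ => n.bits⟩
noncomputable instance : Rp Prop := ⟨Unit, fun p _ => [@decide p (Classical.dec p)]⟩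

@[simp] theorem sz_un (u : Un) : sz u = u.val := by
  show ∑ _ : Unit, (List.replicate u.val true).length = _; simp
theorem sz_nat (n : ℕ) : sz n = n.size := by
  show ∑ _ : Unit, n.bits.length = _; simp [Nat.size_eq_bits_len]
theorem sz_nat_le {n k : ℕ} : sz n ≤ k ↔ n < 2 ^ k := by rw [sz_nat, Nat.size_le]
theorem lt_two_pow_sz (n : ℕ) : n < 2 ^ sz n := sz_nat_le.1 le_rfl
theorem sz_nat_mono {m n : ℕ} (h : m ≤ n) : sz m ≤ sz n := by
  rw [sz_nat, sz_nat]; exact Nat.size_le_size h
theorem sz_nat_le_self (n : ℕ) : sz n ≤ n := sz_nat_le.2 Nat.lt_two_pow_self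

/-- Computable in polynomial time with the result written in unary. -/
@[fun_prop] def PU {α : Type} [Rp α] (n : α → ℕ) : Prop := PTime fun a => Un.mk (n a)

section
variable {α β γ : Type} [Rp α] [Rp β] [Rp γ]

/-! ### Words -/

@[fun_prop] theorem PTime.append {f g : α → Word} (hf : PTime f) (hg : PTime g) :
    PTime fun a => f a ++ g a := fun _ => PTw.append (hf ()) (hg ())

@[fun_prop] theorem PTime.cons {b : α → Bool} {f : α → Word} (hb : PTime b) (hf : PTime f) :
    PTime fun a => b a :: f a := fun _ => PTw.append (hb ()) (hf ())

@[fun_prop] theorem PTime.tail {f : α → Word} (hf : PTime f) : PTime fun a => (f a).tail :=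
  fun _ => PTw.tail (hf ())

@[fun_prop] theorem PTime.headI {f : α → Word} (hf : PTime f) : PTime fun a => (f a).headI := by
  refine (PTime.cases hf (PTime.const false) (PTime.const true) (PTime.const false)).congr
    fun a => ?_
  rcases f a with _ | ⟨_ | _, _⟩ <;> rfl

/-! ### Booleans and propositions -/

@[fun_prop] theorem PTime.decide {c : α → Prop} [∀ a, Decidable (c a)] (hc : PTime c) :
    PTime fun a => decide (c a) := fun _ => by
  have := hc ()
  convert this using 2 with a
  show [Decidable.decide (c a)] = [@Decidable.decide (c a) (Classical.dec _)]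
  congr

theorem PTime.of_bool {c : α → Prop} {b : α → Bool} (hb : PTime b) (h : ∀ a, c a ↔ b a = true) :
    PTime c := fun _ => by
  have := hb ()
  convert this using 2 with a
  show [@Decidable.decide (c a) (Classical.dec _)] = [b a]
  congr 1
  cases hb' : b a <;> simp [h, hb']

@[fun_prop] theorem PTime.ite {c : α → Prop} [∀ a, Decidable (c a)] {f g : α → β} (hc : PTime c)
    (hf : PTime f) (hg : PTime g) : PTime fun a => if c a then f a else g a :=
  (hc.decide.cond hf hg).congr fun a => by by_cases h : c a <;> simp [h]

@[fun_prop] theorem PTime.bnot {b : α → Bool} (hb : PTime b) : PTime fun a => !b a :=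
  (hb.cond (PTime.const false) (PTime.const true)).congr fun a => by cases b a <;> rfl

@[fun_prop] theorem PTime.band {b c : α → Bool} (hb : PTime b) (hc : PTime c) :
    PTime fun a => b a && c a :=
  (hb.cond hc (PTime.const false)).congr fun a => by cases b a <;> rfl

@[fun_prop] theorem PTime.bor {b c : α → Bool} (hb : PTime b) (hc : PTime c) :
    PTime fun a => b a || c a :=
  (hb.cond (PTime.const true) hc).congr fun a => by cases b a <;> rfl

@[fun_prop] theorem PTime.beq {b c : α → Bool} (hb : PTime b) (hc : PTime c) :
    PTime fun a => b a = c a :=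
  (hb.cond hc hc.bnot).of_bool fun a => by cases b a <;> cases c a <;> simp

@[fun_prop] theorem PTime.not {c : α → Prop} (hc : PTime c) : PTime fun a => ¬ c a := by
  classical
  exact hc.decide.bnot.of_bool fun a => by simp

@[fun_prop] theorem PTime.and {c d : α → Prop} (hc : PTime c) (hd : PTime d) :
    PTime fun a => c a ∧ d a := by
  classical
  exact (hc.decide.band hd.decide).of_bool fun a => by simp

@[fun_prop] theorem PTime.or {c d : α → Prop} (hc : PTime c) (hd : PTime d) :
    PTime fun a => c a ∨ d a := by
  classical
  exact (hc.decide.bor hd.decide).of_bool fun a => by simp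

theorem PTime.eq_nil {f : α → Word} (hf : PTime f) : PTime fun a => f a = [] := by
  refine (PTime.cases hf (PTime.const true) (PTime.const false) (PTime.const false)).of_bool
    fun a => ?_
  rcases f a with _ | ⟨_ | _, _⟩ <;> simp

/-! ### Unary numbers -/

theorem PU.word_iff {n : α → ℕ} : PU n ↔ PTime fun a => List.replicate (n a) true :=
  ⟨fun h _ => h (), fun h _ => h ()⟩

theorem PU.pb {n : α → ℕ} (h : PU n) : PB n := by simpa using PTime.sz h

@[fun_prop] theorem PU.const (c : ℕ) : PU fun _ : α => c := PTime.const _

@[fun_prop] theorem PU.comp {n : β → ℕ} {f : α → β} (hn : PU n) (hf : PTime f) :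
    PU fun a => n (f a) := PTime.comp (g := fun b => Un.mk (n b)) hn hf

@[fun_prop] theorem PU.val {f : α → Un} (hf : PTime f) : PU fun a => (f a).val := hf

@[fun_prop] theorem PTime.unMk {n : α → ℕ} (hn : PU n) : PTime fun a => Un.mk (n a) := hn

@[fun_prop] theorem PU.add {m n : α → ℕ} (hm : PU m) (hn : PU n) : PU fun a => m a + n a :=
  PU.word_iff.2 <| ((PU.word_iff.1 hm).append (PU.word_iff.1 hn)).congr fun a => by
    rw [List.replicate_add]

@[fun_prop] theorem PU.ite {c : α → Prop} [∀ a, Decidable (c a)] {m n : α → ℕ} (hc : PTime c)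
    (hm : PU m) (hn : PU n) : PU fun a => if c a then m a else n a :=
  (PTime.ite hc hm hn).congr fun a => by beta_reduce; split_ifs <;> rfl

/-- Counted loop: `F a` is computed by iterating `step a`. -/
theorem PTime.loop {σ : Type} [Rp σ] (F : α → ℕ → σ) (step : α → σ → ℕ → σ) {n : α → ℕ}
    (hn : PU n) (h0 : PTime fun a => F a 0)
    (hs : PTime fun p : α × σ × Un => step p.1 p.2.1 p.2.2.val)
    (hF : ∀ a k, k < n a → F a (k + 1) = step a (F a k) k)
    {B : α → ℕ} (hB : PB B) (hb : ∀ a k, k ≤ n a → PT.sz (F a k) ≤ B a) :
    PTime fun a => F a (n a) := by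
  have key : ∀ a k, k ≤ n a → (List.replicate k true).foldl
      (fun (s : σ × Un) (_ : Bool) => (step a s.1 s.2.val, Un.mk (s.2.val + 1))) (F a 0, Un.mk 0)
      = (F a k, Un.mk k) := by
    intro a k
    induction k with
    | zero => intro _; rfl
    | succ k ih =>
        intro hk
        rw [List.replicate_succ', List.foldl_append, ih (by omega), hF a k (by omega)]
        rfl
  have := PTime.foldl (σ := σ × Un) (l := fun a => List.replicate (n a) true)
    (init := fun a => (F a 0, Un.mk 0))
    (step := fun a s _ => (step a s.1 s.2.val, Un.mk (s.2.val + 1))) (PU.word_iff.1 hn)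
    (h0.pair (PTime.const _))
    (PTime.pair
      (hs.comp (f := fun p : α × (σ × Un) × Bool => (p.1, p.2.1.1, p.2.1.2)) (by fun_prop))
      (by fun_prop))
    (hB.add hn.pb) (fun a k => by
      rw [List.take_replicate, key a _ (min_le_right _ _), sz_prod, sz_un]
      exact Nat.add_le_add (hb a _ (min_le_right _ _)) (min_le_right _ _))
  exact this.fst.congr fun a => by rw [key a _ le_rfl]

@[fun_prop] theorem PU.length {f : α → Word} (hf : PTime f) : PU fun a => (f a).length := by
  have key : ∀ (l : Word) (k : ℕ), l.foldl (fun (s : Un) (_ : Bool) => Un.mk (s.val + 1)) (Un.mk k)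
      = Un.mk (k + l.length) := by
    intro l
    induction l with
    | nil => intro k; rfl
    | cons b l ih => intro k; rw [List.foldl_cons, ih]; simp; omega
  have := PTime.foldl (σ := Un) (init := fun _ => Un.mk 0)
    (step := fun _ s _ => Un.mk (s.val + 1)) hf (PTime.const _) (by fun_prop) hf.sz
    (fun a k => by rw [key]; simp)
  exact this.congr fun a => by rw [key]; simp

@[fun_prop] theorem PTime.drop {f : α → Word} {n : α → ℕ} (hn : PU n) (hf : PTime f) :
    PTime fun a => (f a).drop (n a) :=
  PTime.loop (fun a k => (f a).drop k) (fun _ s _ => s.tail) hn (by simpa using hf) (by fun_prop)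
    (fun a k _ => by simp) hf.sz (fun a k _ => by simp)

@[fun_prop] theorem PTime.reverse {f : α → Word} (hf : PTime f) :
    PTime fun a => (f a).reverse := by
  have := PTime.foldl (σ := Word) (init := fun _ => [])
    (step := fun _ s b => b :: s) hf (PTime.const _) (by fun_prop) hf.sz
    (fun a k => by simp)
  exact this.congr fun a => by simp

@[fun_prop] theorem PTime.replicate {n : α → ℕ} {b : α → Bool} (hn : PU n) (hb : PTime b) :
    PTime fun a => List.replicate (n a) (b a) :=
  PTime.loop (fun a k => List.replicate k (b a)) (fun a s _ => b a :: s) hn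
    (by simpa using PTime.const _) (by fun_prop)
    (fun a k _ => List.replicate_succ) hn.pb (fun a k hk => by simpa using hk)

@[fun_prop] theorem PU.sub {m n : α → ℕ} (hm : PU m) (hn : PU n) : PU fun a => m a - n a :=
  PU.word_iff.2 <| (PTime.drop hn (PU.word_iff.1 hm)).congr fun a => by simp

@[fun_prop] theorem PU.mul {m n : α → ℕ} (hm : PU m) (hn : PU n) : PU fun a => m a * n a :=
  PTime.loop (fun a k => Un.mk (m a * k)) (fun a s _ => Un.mk (s.val + m a)) hn
    (by simpa using PTime.const _) (by fun_prop)
    (fun a k _ => by rw [Nat.mul_succ]) (hm.pb.mul hn.pb)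
    (fun a k hk => by simpa using Nat.mul_le_mul_left _ hk)

@[fun_prop] theorem PU.pow_const {m : α → ℕ} (hm : PU m) (k : ℕ) : PU fun a => m a ^ k := by
  induction k with
  | zero => simpa using PU.const 1
  | succ k ih => simpa [pow_succ] using ih.mul hm

/-- Concatenation of a polynomial number of words. -/
theorem PTime.flatRange {n : α → ℕ} {g : α → ℕ → Word} (hn : PU n)
    (hg : PTime fun p : α × Un => g p.1 p.2.val) :
    PTime fun a => ((List.range (n a)).map (g a)).flatten := by
  obtain ⟨q, hq⟩ := hg.sz
  refine PTime.loop (fun a k => ((List.range k).map (g a)).flatten) (fun a s k => s ++ g a k) hn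
    (by simpa using PTime.const _)
    (PTime.append (by fun_prop) (hg.comp (f := fun p : α × Word × Un => (p.1, p.2.2))
      (by fun_prop)))
    (fun a k _ => by simp [List.range_succ])
    (hn.pb.mul ((PB.sz.add hn.pb).eval q)) (fun a k hk => ?_)
  induction k with
  | zero => simp
  | succ k ih =>
      have h1 := (hq (a, Un.mk k)).trans (eval_mono q (m := PT.sz (a, Un.mk k))
        (n := PT.sz a + n a) (by simp; omega))
      have h2 : PT.sz ((List.range k).map (g a)).flatten ≤ k * q.eval (PT.sz a + n a) := by
        clear ih h1
        induction k with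
        | zero => simp
        | succ k ih =>
            have h1 := (hq (a, Un.mk k)).trans (eval_mono q (m := PT.sz (a, Un.mk k))
              (n := PT.sz a + n a) (by simp; omega))
            have := ih (by omega)
            simp only [List.range_succ, List.map_append, List.flatten_append, sz_word,
              List.length_append, add_mul] at this h1 ⊢
            simp at this ⊢
            omega
      have h3 : (k + 1) * q.eval (PT.sz a + n a) ≤ n a * q.eval (PT.sz a + n a) :=
        Nat.mul_le_mul_right _ hk
      simp only [List.range_succ, List.map_append, List.flatten_append, sz_word,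
        List.length_append, add_mul] at h1 h2 h3 ⊢
      simp at h2 ⊢
      omega

/-- The number of leading `true` bits. -/
def lead (x : Word) : ℕ := (x.takeWhile id).length

theorem lead_replicate (n : ℕ) (x : Word) : lead (List.replicate n true ++ false :: x) = n := by
  induction n with
  | zero => simp [lead]
  | succ n ih => simp [lead, List.replicate_succ]

@[fun_prop] theorem PU.lead {f : α → Word} (hf : PTime f) : PU fun a => lead (f a) := by
  have key : ∀ (l : Word) (c : Bool) (k : ℕ), (l.foldl
      (fun (s : Bool × Un) (b : Bool) => (s.1 && b, bif s.1 && b then Un.mk (s.2.val + 1) else s.2))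
      (c, Un.mk k)).2 = Un.mk (k + bif c then PT.lead l else 0) := by
    intro l
    induction l with
    | nil => intro c k; cases c <;> rfl
    | cons b l ih =>
        intro c k
        rw [List.foldl_cons]
        cases c <;> cases b <;> simp [ih, PT.lead] <;> omega
  have := PTime.foldl (σ := Bool × Un) (init := fun _ => (true, Un.mk 0))
    (step := fun _ s b => (s.1 && b, bif s.1 && b then Un.mk (s.2.val + 1) else s.2)) hf
    (PTime.const _) (by fun_prop) (hf.sz.add (PB.const 1))
    (fun a k => by
      rw [← Prod.mk.eta (p := List.foldl _ _ _), key, sz_prod]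
      have : PT.lead ((f a).take k) ≤ (f a).length :=
        (List.takeWhile_sublist _).length_le.trans (by simp)
      simp; omega)
  exact this.snd.congr fun a => by rw [key]; simp

end

end Crest.Agent.PT
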