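import Crest.Agent.Lib.PT.Machine

/-!
Polynomial-time functions between types represented by finite families of bit strings.
-/

set_option autoImplicit false

namespace Crest.Agent.PT

open Function

/-! ### Runs -/

theorem Run.mono {p : Prog} {s s' : St} {T T' : ℕ} (h : Run p s s' T) (hT : T ≤ T') :
    Run p s s' T' := by
  obtain ⟨t, ht, h⟩ := h; exact ⟨t, ht.trans hT, h⟩

theorem Run.cast {p : Prog} {s s' s'' : St} {T T' : ℕ} (h : Run p s s' T) (hT : T ≤ T')
    (hs : s'' = s') : Run p s s'' T' := hs ▸ h.mono hT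

theorem Run.skip (s : St) : Run .skip s s 1 := ⟨1, le_rfl, .skip s⟩

theorem Run.push (r : ℕ) (b : Bool) (s : St) : Run (.push r b) s (update s r (b :: s r)) 1 :=
  ⟨1, le_rfl, .push r b s⟩

theorem Run.pop (r : ℕ) (s : St) : Run (.pop r) s (update s r (s r).tail) 1 :=
  ⟨1, le_rfl, .pop r s⟩

theorem Run.seq {p q : Prog} {s s' s'' : St} {T T' : ℕ} (h : Run p s s' T) (h' : Run q s' s'' T') :
    Run (.seq p q) s s'' (T + T') := by
  obtain ⟨t, ht, h⟩ := h; obtain ⟨t', ht', h'⟩ := h'
  exact ⟨t + t', Nat.add_le_add ht ht', .seq h h'⟩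

theorem Run.iteN {r : ℕ} {pn pt pf : Prog} {s s' : St} {T : ℕ} (hs : (s r).head? = none)
    (h : Run pn s s' T) : Run (.ite r pn pt pf) s s' (T + 1) := by
  obtain ⟨t, ht, h⟩ := h; exact ⟨t + 1, by omega, .iteN hs h⟩

theorem Run.iteT {r : ℕ} {pn pt pf : Prog} {s s' : St} {T : ℕ} (hs : (s r).head? = some true)
    (h : Run pt s s' T) : Run (.ite r pn pt pf) s s' (T + 1) := by
  obtain ⟨t, ht, h⟩ := h; exact ⟨t + 1, by omega, .iteT hs h⟩

theorem Run.iteF {r : ℕ} {pn pt pf : Prog} {s s' : St} {T : ℕ} (hs : (s r).head? = some false)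
    (h : Run pf s s' T) : Run (.ite r pn pt pf) s s' (T + 1) := by
  obtain ⟨t, ht, h⟩ := h; exact ⟨t + 1, by omega, .iteF hs h⟩

theorem Run.loopN {r : ℕ} {p : Prog} {s : St} (hs : s r = []) : Run (.loop r p) s s 1 :=
  ⟨1, le_rfl, .loopN hs⟩

theorem Run.loopC {r : ℕ} {p : Prog} {s s' s'' : St} {T T' : ℕ} (hs : s r ≠ [])
    (h : Run p s s' T) (h' : Run (.loop r p) s' s'' T') : Run (.loop r p) s s'' (T' + T + 1) := by
  obtain ⟨t, ht, h⟩ := h; obtain ⟨t', ht', h'⟩ := h'
  exact ⟨t' + t + 1, by omega, .loopC hs h h'⟩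

theorem Exec.length_le {p : Prog} {s s' : St} {t : ℕ} (h : Exec p s s' t) (r : ℕ) :
    (s' r).length ≤ (s r).length + t := by
  induction h with
  | skip s => omega
  | push r' b s => by_cases hr : r = r' <;> simp [hr]
  | pop r' s => by_cases hr : r = r' <;> simp [hr]; omega
  | seq _ _ ih1 ih2 => omega
  | iteN _ _ ih => omega
  | iteT _ _ ih => omega
  | iteF _ _ ih => omega
  | loopN _ => omega
  | loopC _ _ _ ih1 ih2 => omega

theorem Run.length_le {p : Prog} {s s' : St} {T : ℕ} (h : Run p s s' T) (r : ℕ) :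
    (s' r).length ≤ (s r).length + T := by
  obtain ⟨t, ht, h⟩ := h; have := h.length_le r; omega

/-! ### Basic programs -/

def clearP (r : ℕ) : Prog := .loop r (.pop r)

theorem run_clear (r : ℕ) (s : St) : Run (clearP r) s (update s r []) (2 * (s r).length + 1) := by
  generalize hl : s r = l
  induction l generalizing s with
  | nil =>
      have : update s r [] = s := by rw [← hl, update_eq_self]
      rw [this]; exact Run.loopN hl
  | cons b l ih =>
      have h1 := Run.pop r s
      have h2 := ih (update s r (s r).tail) (by simp [hl])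
      rw [update_idem] at h2
      exact (Run.loopC (by simp [hl]) h1 h2).mono (by simp; omega)

/-- Move the bits of `r` onto `u` and `v` (reversing them). -/
def move2 (r u v : ℕ) : Prog :=
  .loop r (.seq (.ite r .skip (.seq (.push u true) (.push v true))
    (.seq (.push u false) (.push v false))) (.pop r))

def move1 (r u : ℕ) : Prog :=
  .loop r (.seq (.ite r .skip (.push u true) (.push u false)) (.pop r))

theorem run_move1 {r u : ℕ} (hru : r ≠ u) (s : St) :
    Run (move1 r u) s (update (update s r []) u ((s r).reverse ++ s u)) (4 * (s r).length + 1) := by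
  generalize hl : s r = l
  induction l generalizing s with
  | nil =>
      have : update (update s r []) u ([].reverse ++ s u) = s := by
        rw [← hl, update_eq_self]; simp [hl]
      rw [this]; exact Run.loopN hl
  | cons b l ih =>
      have h1 : Run (.ite r .skip (.push u true) (.push u false)) s (update s u (b :: s u)) 2 := by
        cases b
        · exact Run.iteF (by simp [hl]) (Run.push _ _ _)
        · exact Run.iteT (by simp [hl]) (Run.push _ _ _)
      have h2 := h1.seq (Run.pop r _)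
      have h3 := ih (update (update s u (b :: s u)) r (update s u (b :: s u) r).tail)
        (by simp [update_of_ne hru, hl])
      have h4 := Run.loopC (by simp [hl]) h2 h3
      refine h4.cast (by simp; omega) ?_
      funext k
      by_cases hk : k = u
      · subst hk; simp [update_of_ne hru.symm]
      · by_cases hk' : k = r
        · subst hk'; simp [update_of_ne hk]
        · simp [update_of_ne hk, update_of_ne hk']

theorem run_move2 {r u v : ℕ} (hru : r ≠ u) (hrv : r ≠ v) (huv : u ≠ v) (s : St) :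
    Run (move2 r u v) s
      (update (update (update s r []) u ((s r).reverse ++ s u)) v ((s r).reverse ++ s v))
      (5 * (s r).length + 1) := by
  generalize hl : s r = l
  induction l generalizing s with
  | nil =>
      have : update (update (update s r []) u ([].reverse ++ s u)) v ([].reverse ++ s v) = s := by
        rw [← hl, update_eq_self]; simp [hl]
      rw [this]; exact Run.loopN hl
  | cons b l ih =>
      have h1 : Run (.ite r .skip (.seq (.push u true) (.push v true))
          (.seq (.push u false) (.push v false))) s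
          (update (update s u (b :: s u)) v (b :: update s u (b :: s u) v)) 3 := by
        cases b
        · exact Run.iteF (by simp [hl]) ((Run.push _ _ _).seq (Run.push _ _ _))
        · exact Run.iteT (by simp [hl]) ((Run.push _ _ _).seq (Run.push _ _ _))
      have h2 := h1.seq (Run.pop r _)
      have h3 := ih (update (update (update s u (b :: s u)) v (b :: update s u (b :: s u) v)) r
        (update (update s u (b :: s u)) v (b :: update s u (b :: s u) v) r).tail)
        (by simp [update_of_ne hru, update_of_ne hrv, hl])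
      have h4 := Run.loopC (by simp [hl]) h2 h3
      refine h4.cast (by simp; omega) ?_
      funext k
      by_cases hk : k = v
      · subst hk; simp [update_of_ne hrv.symm, update_of_ne huv.symm]
      · by_cases hk' : k = u
        · subst hk'; simp [update_of_ne hk, update_of_ne hru.symm]
        · by_cases hk'' : k = r
          · subst hk''; simp [update_of_ne hk, update_of_ne hk']
          · simp [update_of_ne hk, update_of_ne hk', update_of_ne hk'']

/-- Prepend the content of `x` to `y`, with scratch register `t`. -/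
def copyP (x y t : ℕ) : Prog := .seq (move1 x t) (move2 t x y)

theorem run_copy {x y t : ℕ} (hxy : x ≠ y) (hxt : x ≠ t) (hyt : y ≠ t) (s : St) (ht : s t = []) :
    Run (copyP x y t) s (update s y (s x ++ s y)) (9 * (s x).length + 2) := by
  have h1 := run_move1 hxt s
  have h2 := run_move2 hxt.symm hyt.symm hxy
    (update (update s x []) t ((s x).reverse ++ s t))
  refine (h1.seq h2).cast (by simp [ht]; omega) ?_
  funext k
  by_cases hk : k = y
  · subst hk; simp [update_of_ne hyt, update_of_ne hxy.symm, ht]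
  · by_cases hk' : k = x
    · subst hk'; simp [update_of_ne hk, update_of_ne hxt, ht]
    · by_cases hk'' : k = t
      · subst hk''; simp [update_of_ne hk, update_of_ne hk', ht]
      · simp [update_of_ne hk, update_of_ne hk', update_of_ne hk'']

/-- Running one program for every register of a block. -/
theorem seqAll {A J : Type} [Fintype J] (Y : J → ℕ) (hY : Injective Y) (Pre : A → St → Prop)
    (hPre : ∀ a s s', Pre a s → (∀ r, (∀ j, Y j ≠ r) → s' r = s r) → Pre a s')
    (u v : A → J → Word) (T : A → J → ℕ)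
    (h : ∀ j, ∃ p, ∀ a s, Pre a s → s (Y j) = u a j → Run p s (update s (Y j) (v a j)) (T a j)) :
    ∃ p, ∀ a s, Pre a s → (∀ j, s (Y j) = u a j) →
      ∃ s', Run p s s' (∑ j, T a j + 1) ∧ (∀ j, s' (Y j) = v a j) ∧
        ∀ r, (∀ j, Y j ≠ r) → s' r = s r := by
  classical
  have key : ∀ S : Finset J, ∃ p, ∀ a s, Pre a s → (∀ j, s (Y j) = u a j) →
      ∃ s', Run p s s' (∑ j ∈ S, T a j + 1) ∧ (∀ j ∈ S, s' (Y j) = v a j) ∧
        ∀ r, (∀ j ∈ S, Y j ≠ r) → s' r = s r := by
    intro S
    induction S using Finset.induction_on with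
    | empty => exact ⟨.skip, fun a s _ _ => ⟨s, by simpa using Run.skip s, by simp, by simp⟩⟩
    | insert j S hj ih =>
        obtain ⟨p, hp⟩ := ih
        obtain ⟨q, hq⟩ := h j
        refine ⟨.seq p q, fun a s hs hu => ?_⟩
        obtain ⟨s', h1, h2, h3⟩ := hp a s hs hu
        have hj' : s' (Y j) = u a j := by
          rw [h3 _ (fun j' hj' e => hj (by rwa [hY e] at hj')), hu]
        have h4 := hq a s' (hPre a s s' hs fun r hr => h3 r fun j' _ => hr j') hj'
        refine ⟨_, (h1.seq h4).mono (by rw [Finset.sum_insert hj]; omega), ?_, ?_⟩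
        · intro j' hj'
          rcases Finset.mem_insert.1 hj' with rfl | hj''
          · simp
          · have : Y j' ≠ Y j := fun e => hj (hY e ▸ hj'')
            rw [update_of_ne this, h2 j' hj'']
        · intro r hr
          rw [update_of_ne (hr j (Finset.mem_insert_self _ _)).symm]
          exact h3 r fun j' hj' => hr j' (Finset.mem_insert_of_mem hj')
  obtain ⟨p, hp⟩ := key Finset.univ
  refine ⟨p, fun a s hs hu => ?_⟩
  obtain ⟨s', h1, h2, h3⟩ := hp a s hs hu
  exact ⟨s', h1, fun j => h2 j (Finset.mem_univ _), fun r hr => h3 r fun j _ => hr j⟩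

theorem exists_fresh (J : Type) [Fintype J] (z : ℕ) :
    ∃ (Y : J → ℕ) (z' : ℕ), Injective Y ∧ z ≤ z' ∧ ∀ j, z ≤ Y j ∧ Y j < z' := by
  refine ⟨fun j => z + (Fintype.equivFin J j : ℕ), z + Fintype.card J, ?_, by omega, fun j => ?_⟩
  · intro a b h
    exact (Fintype.equivFin J).injective (Fin.ext (by simpa using h))
  · have := (Fintype.equivFin J j).2
    constructor <;> simp only <;> omega

theorem clearAll {J : Type} [Fintype J] (Y : J → ℕ) (hY : Injective Y) :
    ∃ p, ∀ s : St, ∃ s', Run p s s' (∑ j, (2 * (s (Y j)).length + 1) + 1) ∧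
      (∀ j, s' (Y j) = []) ∧ ∀ r, (∀ j, Y j ≠ r) → s' r = s r := by
  obtain ⟨p, hp⟩ := seqAll (A := J → Word) Y hY (fun _ _ => True) (fun _ _ _ _ _ => trivial)
    (fun a j => a j) (fun _ _ => []) (fun a j => 2 * (a j).length + 1)
    (fun j => ⟨clearP (Y j), fun a s _ hs => hs ▸ run_clear _ s⟩)
  exact ⟨p, fun s => hp (fun j => s (Y j)) s trivial fun _ => rfl⟩

/-! ### Represented types -/

class Rp (α : Type) where
  I : Type
  [fin : Fintype I]
  w : α → I → Word

attribute [instance_reducible, instance] Rp.fin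

open Rp

/-- Size of a represented value. -/
def sz {α : Type} [Rp α] (a : α) : ℕ := ∑ i, (w a i).length

theorem length_le_sz {α : Type} [Rp α] (a : α) (i : I α) : (w a i).length ≤ sz a :=
  Finset.single_le_sum (f := fun i => (w a i).length) (fun _ _ => Nat.zero_le _) (Finset.mem_univ i)

instance : Rp Word := ⟨Unit, fun a _ => a⟩
instance : Rp Bool := ⟨Unit, fun b _ => [b]⟩
instance : Rp Unit := ⟨Empty, fun _ i => i.elim⟩
instance {α β : Type} [Rp α] [Rp β] : Rp (α × β) :=
  ⟨I α ⊕ I β, fun p => Sum.elim (w p.1) (w p.2)⟩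

@[simp] theorem sz_word (a : Word) : sz a = a.length := by
  show ∑ _ : Unit, a.length = _; simp
@[simp] theorem sz_bool (a : Bool) : sz a = 1 := by
  show ∑ _ : Unit, [a].length = _; simp
@[simp] theorem sz_unit (a : Unit) : sz a = 0 := by
  show ∑ i : Empty, _ = _; simp
@[simp] theorem sz_prod {α β : Type} [Rp α] [Rp β] (a : α) (b : β) :
    sz (a, b) = sz a + sz b := by
  show ∑ i : I α ⊕ I β, (Sum.elim (w a) (w b) i).length = _
  rw [Fintype.sum_sum_type]; rfl

/-- Polynomially bounded in the size of the argument. -/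
def PB {α : Type} [Rp α] (g : α → ℕ) : Prop :=
  ∃ q : Polynomial ℕ, ∀ a, g a ≤ q.eval (sz a)

theorem eval_mono (q : Polynomial ℕ) {m n : ℕ} (h : m ≤ n) : q.eval m ≤ q.eval n := by
  rw [Polynomial.eval_eq_sum_range, Polynomial.eval_eq_sum_range]
  exact Finset.sum_le_sum fun i _ => Nat.mul_le_mul_left _ (Nat.pow_le_pow_left h i)

section PB
variable {α : Type} [Rp α]

theorem PB.const (c : ℕ) : PB (fun _ : α => c) := ⟨Polynomial.C c, fun _ => by simp⟩
theorem PB.sz : PB (fun a : α => sz a) := ⟨Polynomial.X, fun _ => by simp⟩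
theorem PB.add {f g : α → ℕ} (hf : PB f) (hg : PB g) : PB (fun a => f a + g a) := by
  obtain ⟨p, hp⟩ := hf; obtain ⟨q, hq⟩ := hg
  exact ⟨p + q, fun a => by simpa using Nat.add_le_add (hp a) (hq a)⟩
theorem PB.mul {f g : α → ℕ} (hf : PB f) (hg : PB g) : PB (fun a => f a * g a) := by
  obtain ⟨p, hp⟩ := hf; obtain ⟨q, hq⟩ := hg
  exact ⟨p * q, fun a => by simpa using Nat.mul_le_mul (hp a) (hq a)⟩
theorem PB.mono {f g : α → ℕ} (hg : PB g) (h : ∀ a, f a ≤ g a) : PB f := by
  obtain ⟨q, hq⟩ := hg; exact ⟨q, fun a => (h a).trans (hq a)⟩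
theorem PB.eval (q : Polynomial ℕ) {f : α → ℕ} (hf : PB f) : PB (fun a => q.eval (f a)) := by
  obtain ⟨p, hp⟩ := hf
  exact ⟨q.comp p, fun a => by rw [Polynomial.eval_comp]; exact eval_mono q (hp a)⟩
theorem PB.pow {f : α → ℕ} (hf : PB f) (k : ℕ) : PB (fun a => f a ^ k) := by
  simpa using hf.eval (Polynomial.X ^ k)
theorem PB.sum {J : Type} (S : Finset J) {f : J → α → ℕ} (hf : ∀ j, PB (f j)) :
    PB (fun a => ∑ j ∈ S, f j a) := by
  classical
  induction S using Finset.induction_on with
  | empty => simpa using PB.const 0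
  | insert j S hj ih => simpa [Finset.sum_insert hj] using (hf j).add ih
theorem PB.comp' {β : Type} [Rp β] {g : β → ℕ} (hg : PB g) {f : α → β}
    (hf : PB (fun a => PT.sz (f a))) : PB (fun a => g (f a)) := by
  obtain ⟨q, hq⟩ := hg
  exact (hf.eval q).mono fun a => hq (f a)
end PB

/-- Word-valued polynomial-time functions. -/
def PTw {α : Type} [Rp α] (f : α → Word) : Prop :=
  ∃ T : α → ℕ, PB T ∧ ∀ (X : I α → ℕ) (y z : ℕ), (∀ i, X i < z) → y < z → (∀ i, X i ≠ y) →
    ∃ p : Prog, ∀ a s, (∀ i, s (X i) = w a i) → s y = [] → (∀ r, z ≤ r → s r = []) →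
      Run p s (update s y (f a)) (T a)

/-- Polynomial-time functions between represented types. -/
def PTime {α β : Type} [Rp α] [Rp β] (f : α → β) : Prop := ∀ j, PTw fun a => w (f a) j

section
variable {α β γ : Type} [Rp α] [Rp β] [Rp γ]

theorem PTw.length {f : α → Word} (hf : PTw f) : PB fun a => (f a).length := by
  obtain ⟨T, hT, h⟩ := hf
  obtain ⟨X, z, hX, hz, hXz⟩ := exists_fresh (I α) 1
  obtain ⟨p, hp⟩ := h X 0 z (fun i => (hXz i).2) (by omega) (fun i => by have := (hXz i).1; omega)
  refine hT.mono fun a => ?_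
  have h0 : ∀ r, (r = 0 ∨ z ≤ r) → extend X (w a) (fun _ => []) r = [] := by
    intro r hr
    rw [extend_apply']
    rintro ⟨i, rfl⟩
    have := hXz i; omega
  have := (hp a (extend X (w a) (fun _ => [])) (fun i => hX.extend_apply _ _ _)
    (h0 0 (Or.inl rfl)) (fun r hr => h0 r (Or.inr hr))).length_le 0
  simpa [h0 0 (Or.inl rfl)] using this

theorem PTime.sz {f : α → β} (hf : PTime f) : PB fun a => sz (f a) :=
  PB.sum (f := fun j a => (w (f a) j).length) _ fun j => (hf j).length

theorem PB.comp {g : β → ℕ} (hg : PB g) {f : α → β} (hf : PTime f) : PB (fun a => g (f a)) :=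
  hg.comp' hf.sz

theorem PTw.var (i : I α) : PTw fun a : α => w a i := by
  refine ⟨fun a => 9 * PT.sz a + 2, ((PB.const 9).mul PB.sz).add (PB.const 2),
    fun X y z hX hy hXy => ⟨copyP (X i) y z, fun a s hs hy0 hz => ?_⟩⟩
  have := run_copy (hXy i) (hX i).ne hy.ne s (hz z le_rfl)
  rw [hy0, hs i, List.append_nil] at this
  exact this.mono (by have := length_le_sz a i; simp only; omega)

theorem PTw.nil : PTw fun _ : α => [] :=
  ⟨fun _ => 1, PB.const 1, fun X y z _ _ _ => ⟨.skip, fun a s _ hy0 _ => by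
    rw [← hy0, update_eq_self]; exact Run.skip s⟩⟩

theorem PTw.cons (b : Bool) {f : α → Word} (hf : PTw f) : PTw fun a => b :: f a := by
  obtain ⟨T, hT, h⟩ := hf
  refine ⟨fun a => T a + 1, hT.add (PB.const 1), fun X y z hX hy hXy => ?_⟩
  obtain ⟨p, hp⟩ := h X y z hX hy hXy
  refine ⟨.seq p (.push y b), fun a s hs hy0 hz => ?_⟩
  simpa using (hp a s hs hy0 hz).seq (Run.push y b _)

theorem PTw.tail {f : α → Word} (hf : PTw f) : PTw fun a => (f a).tail := by
  obtain ⟨T, hT, h⟩ := hf
  refine ⟨fun a => T a + 1, hT.add (PB.const 1), fun X y z hX hy hXy => ?_⟩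
  obtain ⟨p, hp⟩ := h X y z hX hy hXy
  refine ⟨.seq p (.pop y), fun a s hs hy0 hz => ?_⟩
  simpa using (hp a s hs hy0 hz).seq (Run.pop y _)

theorem PTw.const (c : Word) : PTw fun _ : α => c := by
  induction c with
  | nil => exact PTw.nil
  | cons b c ih => exact ih.cons b

theorem PTw.append {f g : α → Word} (hf : PTw f) (hg : PTw g) : PTw fun a => f a ++ g a := by
  have hl := hf.length
  obtain ⟨T, hT, h⟩ := hf
  obtain ⟨T', hT', h'⟩ := hg
  refine ⟨fun a => T' a + T a + (9 * (f a).length + 2) + (2 * (f a).length + 1),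
    ((hT'.add hT).add (((PB.const 9).mul hl).add (PB.const 2))).add
      (((PB.const 2).mul hl).add (PB.const 1)), fun X y z hX hy hXy => ?_⟩
  obtain ⟨p, hp⟩ := h X z (z + 1) (fun i => (hX i).trans z.lt_succ_self) z.lt_succ_self
    (fun i => (hX i).ne)
  obtain ⟨p', hp'⟩ := h' X y z hX hy hXy
  refine ⟨.seq (.seq (.seq p' p) (copyP z y (z + 1))) (clearP z), fun a s hs hy0 hz => ?_⟩
  have h1 := hp' a s hs hy0 hz
  have h2 := hp a (update s y (g a)) (fun i => by rw [update_of_ne (hXy i), hs])
    (by rw [update_of_ne hy.ne', hz z le_rfl])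
    (fun r hr => by rw [update_of_ne (by omega), hz r (by omega)])
  have h3 := run_copy (x := z) (y := y) (t := z + 1) hy.ne' (by omega) (by omega)
    (update (update s y (g a)) z (f a))
    (by rw [update_of_ne (by omega), update_of_ne (by omega), hz _ (by omega)])
  have h4 := ((h1.seq h2).seq h3).seq (run_clear z _)
  refine h4.cast (by simp [update_of_ne hy.ne']) ?_
  funext k
  by_cases hk : k = z
  · subst hk; simp [update_of_ne hy.ne', hz k le_rfl]
  · by_cases hk' : k = y
    · subst hk'; simp [update_of_ne hk]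
    · simp [update_of_ne hk, update_of_ne hk']

theorem PTw.cases {c fn ft ff : α → Word} (hc : PTw c) (hn : PTw fn) (ht : PTw ft) (hf : PTw ff) :
    PTw fun a => match (c a).head? with
      | none => fn a
      | some true => ft a
      | some false => ff a := by
  have hl := hc.length
  obtain ⟨T, hT, h⟩ := hc
  obtain ⟨T1, hT1, h1⟩ := hn
  obtain ⟨T2, hT2, h2⟩ := ht
  obtain ⟨T3, hT3, h3⟩ := hf
  refine ⟨fun a => T a + (T1 a + T2 a + T3 a + 1) + (2 * (c a).length + 1),
    (hT.add (((hT1.add hT2).add hT3).add (PB.const 1))).add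
      (((PB.const 2).mul hl).add (PB.const 1)), fun X y z hX hy hXy => ?_⟩
  have hX' : ∀ i, X i < z + 1 := fun i => (hX i).trans z.lt_succ_self
  obtain ⟨p, hp⟩ := h X z (z + 1) hX' z.lt_succ_self (fun i => (hX i).ne)
  obtain ⟨p1, hp1⟩ := h1 X y (z + 1) hX' (by omega) hXy
  obtain ⟨p2, hp2⟩ := h2 X y (z + 1) hX' (by omega) hXy
  obtain ⟨p3, hp3⟩ := h3 X y (z + 1) hX' (by omega) hXy
  refine ⟨.seq (.seq p (.ite z p1 p2 p3)) (clearP z), fun a s hs hy0 hz => ?_⟩
  have e1 := hp a s hs (hz z le_rfl) (fun r hr => hz r (by omega))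
  have a1 : ∀ i, update s z (c a) (X i) = w a i := fun i => by rw [update_of_ne (hX i).ne, hs]
  have a2 : update s z (c a) y = [] := by rw [update_of_ne hy.ne, hy0]
  have a3 : ∀ r, z + 1 ≤ r → update s z (c a) r = [] := fun r hr => by
    rw [update_of_ne (by omega), hz r (by omega)]
  have e2 : Run (.ite z p1 p2 p3) (update s z (c a)) (update (update s z (c a)) y
      (match (c a).head? with
      | none => fn a
      | some true => ft a
      | some false => ff a)) (T1 a + T2 a + T3 a + 1) := by
    rcases hh : (c a).head? with _ | _ | _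
    · exact (Run.iteN (by simpa using hh) (hp1 a _ a1 a2 a3)).mono (by omega)
    · exact (Run.iteF (by simpa using hh) (hp3 a _ a1 a2 a3)).mono (by omega)
    · exact (Run.iteT (by simpa using hh) (hp2 a _ a1 a2 a3)).mono (by omega)
  have h4 := (e1.seq e2).seq (run_clear z _)
  refine h4.cast (by simp [update_of_ne hy.ne']) ?_
  funext k
  by_cases hk : k = z
  · subst hk; simp [update_of_ne hy.ne', hz k le_rfl]
  · by_cases hk' : k = y
    · subst hk'; simp [update_of_ne hk]
    · simp [update_of_ne hk, update_of_ne hk']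

/-- Computing all components of a value into an empty block. -/
theorem assignAll {f : α → β} (hf : PTime f) :
    ∃ T : α → ℕ, PB T ∧ ∀ (X : I α → ℕ) (Y : I β → ℕ) (z : ℕ), Injective Y → (∀ i, X i < z) →
      (∀ j, Y j < z) → (∀ i j, X i ≠ Y j) →
      ∃ p : Prog, ∀ a s, (∀ i, s (X i) = w a i) → (∀ j, s (Y j) = []) → (∀ r, z ≤ r → s r = []) →
        ∃ s', Run p s s' (T a) ∧ (∀ j, s' (Y j) = w (f a) j) ∧
          ∀ r, (∀ j, Y j ≠ r) → s' r = s r := by
  choose T hT h using hf
  refine ⟨fun a => ∑ j, T j a + 1, (PB.sum _ hT).add (PB.const 1), fun X Y z hY hX hYz hXY => ?_⟩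
  obtain ⟨p, hp⟩ := seqAll (A := α) Y hY
    (fun a s => (∀ i, s (X i) = w a i) ∧ ∀ r, z ≤ r → s r = [])
    (fun a s s' hs hs' => ⟨fun i => by rw [hs' _ fun j => (hXY i j).symm, hs.1],
      fun r hr => by rw [hs' _ fun j => by have := hYz j; omega, hs.2 r hr]⟩)
    (fun _ _ => []) (fun a j => w (f a) j) (fun a j => T j a)
    (fun j => by
      obtain ⟨p, hp⟩ := h j X (Y j) z hX (hYz j) (fun i => hXY i j)
      exact ⟨p, fun a s hs h0 => hp a s hs.1 h0 hs.2⟩)
  exact ⟨p, fun a s hs h0 hz => hp a s ⟨hs, hz⟩ h0⟩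

theorem sum_clear_le (b : β) :
    ∑ j, (2 * (w b j).length + 1) + 1 = 2 * PT.sz b + (Fintype.card (I β) + 1) := by
  rw [Finset.sum_add_distrib, ← Finset.mul_sum]; simp [PT.sz, add_assoc]

theorem PTw.comp {g : β → Word} (hg : PTw g) {f : α → β} (hf : PTime f) :
    PTw fun a => g (f a) := by
  obtain ⟨T, hT, h⟩ := assignAll hf
  obtain ⟨T', hT', h'⟩ := hg
  refine ⟨fun a => T a + T' (f a) + (2 * PT.sz (f a) + (Fintype.card (I β) + 1)),
    (hT.add (hT'.comp hf)).add (((PB.const 2).mul hf.sz).add (PB.const _)),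
    fun X y z hX hy hXy => ?_⟩
  obtain ⟨Y, z', hY, hz', hYz⟩ := exists_fresh (I β) z
  obtain ⟨p, hp⟩ := h X Y z' hY (fun i => (hX i).trans_le hz') (fun j => (hYz j).2)
    (fun i j => by have := hX i; have := hYz j; omega)
  obtain ⟨p', hp'⟩ := h' Y y z' (fun j => (hYz j).2) (by omega)
    (fun j => by have := hYz j; omega)
  obtain ⟨pc, hpc⟩ := clearAll Y hY
  refine ⟨.seq (.seq p p') pc, fun a s hs hy0 hz => ?_⟩
  obtain ⟨s1, e1, a1, b1⟩ := hp a s hs (fun j => hz _ (hYz j).1) (fun r hr => hz r (by omega))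
  have e2 := hp' (f a) s1 a1 (by rw [b1 _ fun j => by have := hYz j; omega, hy0])
    (fun r hr => by rw [b1 _ fun j => by have := hYz j; omega, hz r (by omega)])
  obtain ⟨s3, e3, a3, b3⟩ := hpc (update s1 y (g (f a)))
  have hYy : ∀ j, Y j ≠ y := fun j => by have := hYz j; omega
  refine ((e1.seq e2).seq e3).cast
    (by simp only [update_of_ne (hYy _), a1, sum_clear_le]; exact le_rfl) ?_
  funext k
  by_cases hk : ∃ j, Y j = k
  · obtain ⟨j, rfl⟩ := hk
    rw [a3, update_of_ne (hYy j), hz _ (hYz j).1]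
  · push Not at hk
    rw [b3 k hk]
    by_cases hk' : k = y
    · subst hk'; simp
    · rw [update_of_ne hk', update_of_ne hk', b1 k hk]

end

end Crest.Agent.PT
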