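import Crest.Agent.Lib.PT.Core

/-!
Closure of `PTime` under composition, pairing, case distinction and bounded folds.
-/

set_option autoImplicit false

namespace Crest.Agent.PT

open Function Crest.Agent.PT.Rp

section
variable {α β γ : Type} [Rp α] [Rp β] [Rp γ]

theorem PTime.id : PTime fun a : α => a := fun j => PTw.var j

theorem PTime.comp {g : β → γ} {f : α → β} (hg : PTime g) (hf : PTime f) :
    PTime fun a => g (f a) := fun j => (hg j).comp hf

theorem PTime.const (b : β) : PTime fun _ : α => b := fun j => PTw.const (w b j)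

theorem PTime.fst' : PTime (Prod.fst : α × β → α) := fun j =>
  PTw.var (α := α × β) (Sum.inl j)

theorem PTime.snd' : PTime (Prod.snd : α × β → β) := fun j =>
  PTw.var (α := α × β) (Sum.inr j)

theorem PTime.fst {f : α → β × γ} (hf : PTime f) : PTime fun a => (f a).1 := fun j =>
  hf (Sum.inl j)

theorem PTime.snd {f : α → β × γ} (hf : PTime f) : PTime fun a => (f a).2 := fun j =>
  hf (Sum.inr j)

theorem PTime.pair {f : α → β} {g : α → γ} (hf : PTime f) (hg : PTime g) :
    PTime fun a => (f a, g a) := fun j => by
  rcases j with j | j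
  · exact hf j
  · exact hg j

theorem PTime.word_iff {f : α → Word} : PTime f ↔ PTw f :=
  ⟨fun h => h (), fun h _ => h⟩

theorem PTime.congr {f g : α → β} (hf : PTime f) (h : ∀ a, g a = f a) : PTime g := by
  rwa [show g = f from funext h]

theorem PTime.cases {c : α → Word} {fn ft ff : α → β} (hc : PTime c) (hn : PTime fn)
    (ht : PTime ft) (hf : PTime ff) :
    PTime fun a => match (c a).head? with
      | none => fn a
      | some true => ft a
      | some false => ff a := fun j => by
  have := PTw.cases (hc ()) (hn j) (ht j) (hf j)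
  convert this using 2 with a
  show _ = match (c a).head? with
      | none => w (fn a) j
      | some true => w (ft a) j
      | some false => w (ff a) j
  beta_reduce
  rcases (c a).head? with _ | _ | _ <;> rfl

theorem PTime.cond {c : α → Bool} {f g : α → β} (hc : PTime c) (hf : PTime f) (hg : PTime g) :
    PTime fun a => bif c a then f a else g a := by
  have hc' : PTime fun a => ([c a] : Word) := fun _ => hc ()
  refine (PTime.cases hc' hf hf hg).congr fun a => ?_
  cases c a <;> rfl

theorem PTime.foldl {σ : Type} [Rp σ] {l : α → Word} {init : α → σ} {step : α → σ → Bool → σ}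
    (hl : PTime l) (hi : PTime init)
    (hs : PTime fun p : α × σ × Bool => step p.1 p.2.1 p.2.2)
    {B : α → ℕ} (hB : PB B)
    (hb : ∀ a k, PT.sz (((l a).take k).foldl (step a) (init a)) ≤ B a) :
    PTime fun a => (l a).foldl (step a) (init a) := by
  intro j0
  have hll := (hl ()).length
  obtain ⟨Tl, hTl, h1⟩ := hl ()
  obtain ⟨Ti, hTi, h2⟩ := assignAll hi
  obtain ⟨Ts, ⟨qs, hqs⟩, h3⟩ := assignAll hs
  obtain ⟨Tc, ⟨qc, hqc⟩, h4⟩ := assignAll (PTime.id (α := σ))
  obtain ⟨Tv, ⟨qv, hqv⟩, h5⟩ := PTw.var (α := σ) j0
  set c0 := Fintype.card (I σ) + 1 with hc0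
  let G : α → ℕ := fun a => qs.eval (PT.sz a + (B a + 1)) + qc.eval (B a) + 4 * B a + 2 * c0 + 5
  have hG : PB G := ((((PB.sz.add (hB.add (PB.const 1))).eval qs).add (hB.eval qc)).add
    ((PB.const 4).mul hB)).add (PB.const _) |>.add (PB.const _)
  refine ⟨fun a => Tl a + Ti a + ((l a).length * G a + 1) + qv.eval (B a) + (2 * B a + c0),
    (((hTl.add hTi).add ((hll.mul hG).add (PB.const 1))).add (hB.eval qv)).add
      (((PB.const 2).mul hB).add (PB.const _)), fun X y z hX hy hXy => ?_⟩
  obtain ⟨S, z1, hS, hz1, hSz⟩ := exists_fresh (I σ) (z + 2)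
  obtain ⟨S', z2, hS', hz2, hSz'⟩ := exists_fresh (I σ) z1
  obtain ⟨p1, hp1⟩ := h1 X z z2 (fun i => by have := hX i; omega) (by omega) (fun i => (hX i).ne)
  obtain ⟨p2, hp2⟩ := h2 X S z2 hS (fun i => by have := hX i; omega)
    (fun j => by have := hSz j; omega) (fun i j => by have := hX i; have := hSz j; omega)
  obtain ⟨p3, hp3⟩ := h3 (Sum.elim X (Sum.elim S fun _ => z + 1)) S' z2 hS'
    (by
      rintro (i | j | u)
      · have := hX i; simp only [Sum.elim_inl]; omega
      · have := hSz j; simp only [Sum.elim_inl, Sum.elim_inr]; omega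
      · simp only [Sum.elim_inr]; omega)
    (fun j => (hSz' j).2)
    (by
      rintro (i | j | u) j'
      · have := hX i; have := hSz' j'; simp only [Sum.elim_inl]; omega
      · have := hSz j; have := hSz' j'; simp only [Sum.elim_inl, Sum.elim_inr]; omega
      · have := hSz' j'; simp only [Sum.elim_inr]; omega)
  obtain ⟨p4, hp4⟩ := h4 S' S z2 hS (fun j => (hSz' j).2) (fun j => by have := hSz j; omega)
    (fun i j => by have := hSz' i; have := hSz j; omega)
  obtain ⟨p5, hp5⟩ := h5 S y z2 (fun j => by have := hSz j; omega) (by omega)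
    (fun j => by have := hSz j; omega)
  obtain ⟨pc, hpc⟩ := clearAll S hS
  obtain ⟨pc', hpc'⟩ := clearAll S' hS'
  let body : Prog := .seq (.seq (.seq (.seq (.seq (.seq
    (.ite z .skip (.push (z + 1) true) (.push (z + 1) false)) (.pop z)) p3) pc) (.pop (z + 1))) p4)
    pc'
  refine ⟨.seq (.seq (.seq (.seq p1 p2) (.loop z body)) p5) pc, fun a s0 hs0 hy0 hz0 => ?_⟩
  -- the invariant
  let Inv : Word → σ → St → Prop := fun l' st s => s z = l' ∧ (∀ j, s (S j) = w st j) ∧
    ∀ r, r ≠ z → (∀ j, S j ≠ r) → s r = s0 r
  have hbody : ∀ b l' st s, Inv (b :: l') st s → PT.sz st ≤ B a → PT.sz (step a st b) ≤ B a →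
      ∃ s', Run body s s' (G a - 1) ∧ Inv l' (step a st b) s' := by
    rintro b l' st s ⟨i1, i2, i3⟩ hst hst'
    have hz1' : s (z + 1) = [] := by
      rw [i3 _ (by omega) fun j => by have := hSz j; omega, hz0 _ (by omega)]
    have e1 : Run (.ite z .skip (.push (z + 1) true) (.push (z + 1) false)) s
        (update s (z + 1) [b]) 2 := by
      cases b
      · exact Run.iteF (by simp [i1]) (by simpa [hz1'] using Run.push (z + 1) false s)
      · exact Run.iteT (by simp [i1]) (by simpa [hz1'] using Run.push (z + 1) true s)
    have e2 := Run.pop z (update s (z + 1) [b])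
    rw [update_of_ne (by omega), i1, List.tail_cons] at e2
    set s2 := update (update s (z + 1) [b]) z l' with hs2
    have a2 : ∀ r, r ≠ z → r ≠ z + 1 → s2 r = s r := fun r h h' => by
      rw [hs2, update_of_ne h, update_of_ne h']
    obtain ⟨s3, e3, a3, b3⟩ := hp3 (a, st, b) s2
      (by
        rintro (i | j | u)
        · have := hX i
          show s2 (X i) = w a i
          rw [a2 _ (by omega) (by omega), i3 _ (by omega) fun j => by have := hSz j; omega, hs0]
        · have := hSz j
          show s2 (S j) = w st j
          rw [a2 _ (by omega) (by omega), i2]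
        · show s2 (z + 1) = [b]
          rw [hs2, update_of_ne (by omega), update_self])
      (fun j => by
        have := hSz' j
        rw [a2 _ (by omega) (by omega), i3 _ (by omega) fun j => by have := hSz j; omega,
          hz0 _ (by omega)])
      (fun r hr => by
        rw [a2 _ (by omega) (by omega), i3 _ (by omega) fun j => by have := hSz j; omega,
          hz0 _ (by omega)])
    obtain ⟨s4, e4, a4, b4⟩ := hpc s3
    have e5 := Run.pop (z + 1) s4
    have h41 : s4 (z + 1) = [b] := by
      rw [b4 _ fun j => by have := hSz j; omega, b3 _ fun j => by have := hSz' j; omega, hs2,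
        update_of_ne (by omega), update_self]
    rw [h41, List.tail_cons] at e5
    obtain ⟨s6, e6, a6, b6⟩ := hp4 (step a st b) (update s4 (z + 1) [])
      (fun j => by
        have := hSz' j
        rw [update_of_ne (by omega), b4 _ fun j => by have := hSz j; omega, a3])
      (fun j => by have := hSz j; rw [update_of_ne (by omega), a4])
      (fun r hr => by
        rw [update_of_ne (by omega), b4 _ fun j => by have := hSz j; omega,
          b3 _ fun j => by have := hSz' j; omega,
          a2 _ (by omega) (by omega), i3 _ (by omega) fun j => by have := hSz j; omega,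
          hz0 _ (by omega)])
    obtain ⟨s7, e7, a7, b7⟩ := hpc' s6
    refine ⟨s7, ((((((e1.seq e2).seq e3).seq e4).seq e5).seq e6).seq e7).mono ?_, ?_, ?_, ?_⟩
    · have t3 : Ts (a, st, b) ≤ qs.eval (PT.sz a + (B a + 1)) :=
        (hqs _).trans (eval_mono _ (by simp; omega))
      have t6 : Tc (step a st b) ≤ qc.eval (B a) := (hqc _).trans (eval_mono _ hst')
      have t4 : ∑ j, (2 * (s3 (S j)).length + 1) + 1 = 2 * PT.sz st + c0 := by
        rw [← sum_clear_le]
        congr 1
        refine Finset.sum_congr rfl fun j _ => ?_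
        have := hSz j
        rw [b3 _ fun j => by have := hSz' j; omega, a2 _ (by omega) (by omega), i2]
      have t7 : ∑ j, (2 * (s6 (S' j)).length + 1) + 1 = 2 * PT.sz (step a st b) + c0 := by
        rw [← sum_clear_le]
        congr 1
        refine Finset.sum_congr rfl fun j _ => ?_
        have := hSz' j
        rw [b6 _ fun j => by have := hSz j; omega, update_of_ne (by omega),
          b4 _ fun j => by have := hSz j; omega, a3]
      rw [t4, t7]
      simp only [G]
      omega
    · rw [b7 _ fun j => by have := hSz' j; omega, b6 _ fun j => by have := hSz j; omega,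
        update_of_ne (by omega), b4 _ fun j => by have := hSz j; omega,
        b3 _ fun j => by have := hSz' j; omega, hs2, update_self]
    · intro j
      have := hSz j
      rw [b7 _ fun j => by have := hSz' j; omega, a6]
    · intro r hr hr'
      by_cases h' : ∃ j, S' j = r
      · obtain ⟨j, rfl⟩ := h'
        have := hSz' j
        rw [a7, hz0 _ (by omega)]
      · push Not at h'
        rw [b7 _ h', b6 _ hr']
        by_cases h'' : r = z + 1
        · subst h''; rw [update_self, hz0 _ (by omega)]
        · rw [update_of_ne h'', b4 _ hr', b3 _ h', a2 _ hr h'', i3 _ hr hr']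
  have hG1 : 1 ≤ G a := by simp only [G]; omega
  have hloop : ∀ l' st s, Inv l' st s → (∀ k, PT.sz ((l'.take k).foldl (step a) st) ≤ B a) →
      ∃ s', Run (.loop z body) s s' (l'.length * G a + 1) ∧ Inv [] (l'.foldl (step a) st) s' := by
    intro l'
    induction l' with
    | nil => intro st s hI _; exact ⟨s, by simpa using Run.loopN hI.1, hI⟩
    | cons b l' ih =>
        intro st s hI hk
        obtain ⟨s1, e1, I1⟩ := hbody b l' st s hI (by simpa using hk 0) (by simpa using hk 1)
        obtain ⟨s2, e2, I2⟩ := ih _ s1 I1 (fun k => by simpa using hk (k + 1))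
        refine ⟨s2, (Run.loopC (by simp [hI.1]) e1 e2).mono ?_, I2⟩
        simp only [List.length_cons, add_mul]; omega
  have e1 := hp1 a s0 hs0 (hz0 z le_rfl) (fun r hr => hz0 r (by omega))
  obtain ⟨s2, e2, a2, b2⟩ := hp2 a (update s0 z (w (l a) ()))
    (fun i => by rw [update_of_ne (hX i).ne, hs0])
    (fun j => by have := hSz j; rw [update_of_ne (by omega), hz0 _ (by omega)])
    (fun r hr => by rw [update_of_ne (by omega), hz0 _ (by omega)])
  obtain ⟨s3, e3, i1, i2, i3⟩ := hloop (l a) (init a) s2
    ⟨by rw [b2 _ fun j => by have := hSz j; omega, update_self]; rfl, a2,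
      fun r hr hr' => by rw [b2 _ hr', update_of_ne hr]⟩ (hb a)
  have hfin : PT.sz ((l a).foldl (step a) (init a)) ≤ B a := by
    simpa using hb a (l a).length
  have e4 := hp5 _ s3 i2 (by rw [i3 _ (by omega) fun j => by have := hSz j; omega, hy0])
    (fun r hr => by rw [i3 _ (by omega) fun j => by have := hSz j; omega, hz0 _ (by omega)])
  obtain ⟨s5, e5, a5, b5⟩ := hpc (update s3 y (w ((l a).foldl (step a) (init a)) j0))
  refine ((((e1.seq e2).seq e3).seq e4).seq e5).cast ?_ ?_
  · have t4 := (hqv ((l a).foldl (step a) (init a))).trans (eval_mono _ hfin)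
    have t5 : ∑ j, (2 * (update s3 y (w ((l a).foldl (step a) (init a)) j0) (S j)).length + 1) + 1
        = 2 * PT.sz ((l a).foldl (step a) (init a)) + c0 := by
      rw [← sum_clear_le]
      congr 1
      refine Finset.sum_congr rfl fun j _ => ?_
      have := hSz j
      rw [update_of_ne (by omega), i2]
    rw [t5]
    simp only
    omega
  · funext r
    by_cases h' : ∃ j, S j = r
    · obtain ⟨j, rfl⟩ := h'
      have := hSz j
      rw [a5, update_of_ne (by omega), hz0 _ (by omega)]
    · push Not at h'
      rw [b5 _ h']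
      by_cases h'' : r = y
      · subst h''; simp
      · rw [update_of_ne h'', update_of_ne h'']
        by_cases h3 : r = z
        · subst h3; rw [i1, hz0 _ le_rfl]
        · rw [i3 _ h3 h']

end

theorem PTime.polyTimeComputable {α β : Type} (ea : α → Word) (eb : β → Word) (f : α → β)
    (g : Word → Word) (hg : PTime g) (h : ∀ a, g (ea a) = eb (f a)) :
    Crest.Complexity.PolyTimeComputable ea eb f := by
  obtain ⟨T, ⟨q, hq⟩, hT⟩ := hg ()
  obtain ⟨p, hp⟩ := hT (fun _ => 0) 1 2 (fun _ => by omega) (by omega) (fun _ => by omega)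
  refine polyTimeComputable_of_prog ea eb f (.seq p (clearP 0))
    (q + (2 * Polynomial.X + 1)) fun a => ?_
  have e1 := hp (ea a) (update (fun _ => []) 0 (ea a)) (fun _ => rfl) rfl
    (fun r hr => by rw [update_of_ne (by omega)])
  refine (e1.seq (run_clear 0 _)).cast ?_ ?_
  · have := hq (ea a)
    simp at this ⊢
    omega
  · funext r
    by_cases h0 : r = 0
    · subst h0; simp
    · by_cases h1 : r = 1
      · subst h1; simp [← h]; rfl
      · simp [update_of_ne h0, update_of_ne h1]

theorem PTime.polyTime {f : Word → Word} (hf : PTime f) : Crest.Complexity.PolyTime f :=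
  PTime.polyTimeComputable _ _ f f hf fun _ => rfl

end Crest.Agent.PT
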