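import Crest.Agent.Lib.PT.Nat
import Crest.Prelude.Def_BitEnc

/-!
Integer arithmetic and the codes of `Crest.Enc` in polynomial time.
-/

set_option autoImplicit false
set_option linter.unusedVariables false

namespace Crest.Agent.PT

open Function Crest.Agent.PT.Rp Crest.Enc

instance : Rp ℤ := ⟨I (ℕ × ℕ), fun z => w (z.toNat, (-z).toNat)⟩

section
variable {α β γ : Type} [Rp α] [Rp β] [Rp γ]

theorem PTime.int_iff {f : α → ℤ} : PTime f ↔ PTime fun a => ((f a).toNat, (-f a).toNat) :=
  Iff.rfl

theorem PTime.int_mk {f : α → ℤ} {p n : α → ℕ} (hp : PTime p) (hn : PTime n)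
    (h : ∀ a, f a = (p a : ℤ) - n a) : PTime f :=
  PTime.int_iff.2 <| ((hp.sub hn).pair (hn.sub hp)).congr fun a => by
    rw [h]; congr 1 <;> omega

@[fun_prop] theorem PTime.toNat {f : α → ℤ} (hf : PTime f) : PTime fun a => (f a).toNat :=
  (PTime.int_iff.1 hf).fst

theorem PTime.toNatNeg {f : α → ℤ} (hf : PTime f) : PTime fun a => (-f a).toNat :=
  (PTime.int_iff.1 hf).snd

@[fun_prop] theorem PTime.natCast {f : α → ℕ} (hf : PTime f) : PTime fun a => (f a : ℤ) :=
  PTime.int_mk hf (PTime.const 0) fun a => by simp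

@[fun_prop] theorem PTime.ineg {f : α → ℤ} (hf : PTime f) : PTime fun a => -f a :=
  PTime.int_mk hf.toNatNeg hf.toNat fun a => by omega

@[fun_prop] theorem PTime.iadd {f g : α → ℤ} (hf : PTime f) (hg : PTime g) :
    PTime fun a => f a + g a :=
  PTime.int_mk (hf.toNat.add hg.toNat) (hf.toNatNeg.add hg.toNatNeg) fun a => by omega

@[fun_prop] theorem PTime.isub {f g : α → ℤ} (hf : PTime f) (hg : PTime g) :
    PTime fun a => f a - g a :=
  PTime.int_mk (hf.toNat.add hg.toNatNeg) (hf.toNatNeg.add hg.toNat) fun a => by omega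

@[fun_prop] theorem PTime.imul {f g : α → ℤ} (hf : PTime f) (hg : PTime g) :
    PTime fun a => f a * g a :=
  PTime.int_mk ((hf.toNat.mul hg.toNat).add (hf.toNatNeg.mul hg.toNatNeg))
    ((hf.toNat.mul hg.toNatNeg).add (hf.toNatNeg.mul hg.toNat)) fun a => by
      have h1 := Int.toNat_sub_toNat_neg (f a)
      have h2 := Int.toNat_sub_toNat_neg (g a)
      push_cast
      conv_lhs => rw [← h1, ← h2]
      ring

@[fun_prop] theorem PTime.natAbs {f : α → ℤ} (hf : PTime f) : PTime fun a => (f a).natAbs :=
  (hf.toNat.add hf.toNatNeg).congr fun a => by omega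

@[fun_prop] theorem PTime.ile {f g : α → ℤ} (hf : PTime f) (hg : PTime g) :
    PTime fun a => f a ≤ g a :=
  ((hf.isub hg).toNat.eq (PTime.const 0)).congr fun a => by simp

@[fun_prop] theorem PTime.ilt {f g : α → ℤ} (hf : PTime f) (hg : PTime g) :
    PTime fun a => f a < g a :=
  (hg.ile hf).not.congr fun a => by simp

@[fun_prop] theorem PTime.ieq {f g : α → ℤ} (hf : PTime f) (hg : PTime g) :
    PTime fun a => f a = g a :=
  ((hf.ile hg).and (hg.ile hf)).congr fun a => by simp [le_antisymm_iff]

@[fun_prop] theorem PTime.ipow {f : α → ℤ} {k : α → ℕ} (hf : PTime f) (hk : PU k) :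
    PTime fun a => f a ^ k a := by
  refine PTime.congr (f := fun a => if f a < 0 ∧ k a % 2 = 1 then -(((f a).natAbs ^ k a : ℕ) : ℤ)
    else (((f a).natAbs ^ k a : ℕ) : ℤ)) (by have := hk.ptime; fun_prop) fun a => ?_
  push_cast
  rcases lt_or_ge (f a) 0 with h | h
  · rw [abs_of_neg h]
    rcases Nat.even_or_odd (k a) with h' | h'
    · rw [if_neg (by rw [Nat.even_iff] at h'; omega), h'.neg_pow]
    · rw [if_pos ⟨h, Nat.odd_iff.1 h'⟩, h'.neg_pow, neg_neg]
  · rw [if_neg (by omega), abs_of_nonneg h]

theorem PTime.isum_range {n : α → ℕ} {g : α → ℕ → ℤ} (hn : PU n)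
    (hg : PTime fun p : α × Un => g p.1 p.2.val) :
    PTime fun a => ∑ i ∈ Finset.range (n a), g a i :=
  PTime.int_mk (PTime.sum_range (g := fun a i => (g a i).toNat) hn hg.toNat)
    (PTime.sum_range (g := fun a i => (-g a i).toNat) hn hg.toNatNeg) fun a => by
      push_cast
      rw [← Finset.sum_sub_distrib]
      exact Finset.sum_congr rfl fun i _ => (Int.toNat_sub_toNat_neg _).symm

@[fun_prop] theorem PTime.natCode {f : α → ℕ} (hf : PTime f) : PTime fun a => natCode (f a) := by
  have key : ∀ (l acc : Word), l.foldl (fun (s : Word) (b : Bool) => s ++ [true, b]) acc =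
      acc ++ (l.map fun b => [true, b]).flatten := by
    intro l
    induction l with
    | nil => simp
    | cons b l ih => intro acc; simp [ih]
  have len : ∀ l : Word, ((l.map fun b => [true, b]).flatten).length = 2 * l.length := by
    intro l
    induction l with
    | nil => simp
    | cons b l ih => simp only [List.map_cons, List.flatten_cons, List.length_append, ih]; simp; omega
  have := PTime.foldl (σ := Word) (init := fun _ => [])
    (step := fun _ s b => s ++ [true, b]) hf.bits (PTime.const _) (by fun_prop)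
    ((PB.const 2).mul hf.bits.sz) (fun a k => by rw [key]; simp only [List.nil_append, sz_word, len]; simp)
  exact (this.append (PTime.const [false, false])).congr fun a => by
    rw [key]; rfl

@[fun_prop] theorem PTime.intCode {f : α → ℤ} (hf : PTime f) : PTime fun a => intCode (f a) := by
  unfold Crest.Enc.intCode; fun_prop

theorem PTime.ratCode_int {f : α → ℤ} (hf : PTime f) : PTime fun a => ratCode (f a : ℚ) := by
  simp only [ratCode, Rat.num_intCast, Rat.den_intCast]; fun_prop

theorem ofFn_flatten_eq {d : ℕ} (g : ℕ → Word) :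
    (List.ofFn fun i : Fin d => g i).flatten = ((List.range d).map g).flatten := by
  rw [List.ofFn_eq_map, ← List.map_coe_finRange_eq_range, List.map_map]; rfl

end

end Crest.Agent.PT
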