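import Mathlib
import Crest.Prelude.Def_Complexity

/-!
A small structured language over registers holding bit strings, its timed big-step semantics,
and its compilation to `Turing.FinTM2`.
-/

set_option autoImplicit false

namespace Crest.Agent.PT

open Function Turing

abbrev Word := List Bool
abbrev St := ℕ → Word

inductive Prog : Type
  | skip : Prog
  | push (r : ℕ) (b : Bool) : Prog
  | pop (r : ℕ) : Prog
  | seq (p q : Prog) : Prog
  | ite (r : ℕ) (pn pt pf : Prog) : Prog
  | loop (r : ℕ) (p : Prog) : Prog

inductive Exec : Prog → St → St → ℕ → Prop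
  | skip (s : St) : Exec .skip s s 1
  | push (r : ℕ) (b : Bool) (s : St) : Exec (.push r b) s (update s r (b :: s r)) 1
  | pop (r : ℕ) (s : St) : Exec (.pop r) s (update s r (s r).tail) 1
  | seq {p q : Prog} {s s' s'' : St} {t t' : ℕ} :
      Exec p s s' t → Exec q s' s'' t' → Exec (.seq p q) s s'' (t + t')
  | iteN {r : ℕ} {pn pt pf : Prog} {s s' : St} {t : ℕ} :
      (s r).head? = none → Exec pn s s' t → Exec (.ite r pn pt pf) s s' (t + 1)
  | iteT {r : ℕ} {pn pt pf : Prog} {s s' : St} {t : ℕ} :
      (s r).head? = some true → Exec pt s s' t → Exec (.ite r pn pt pf) s s' (t + 1)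
  | iteF {r : ℕ} {pn pt pf : Prog} {s s' : St} {t : ℕ} :
      (s r).head? = some false → Exec pf s s' t → Exec (.ite r pn pt pf) s s' (t + 1)
  | loopN {r : ℕ} {p : Prog} {s : St} : s r = [] → Exec (.loop r p) s s 1
  | loopC {r : ℕ} {p : Prog} {s s' s'' : St} {t t' : ℕ} :
      s r ≠ [] → Exec p s s' t → Exec (.loop r p) s' s'' t' →
        Exec (.loop r p) s s'' (t' + t + 1)

/-- The largest register named in a program. -/
def Prog.maxReg : Prog → ℕ
  | .skip => 0
  | .push r _ => r
  | .pop r => r
  | .seq p q => max p.maxReg q.maxReg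
  | .ite r pn pt pf => max r (max pn.maxReg (max pt.maxReg pf.maxReg))
  | .loop r p => max r p.maxReg

def Lbl : Prog → Type
  | .skip => Unit
  | .push _ _ => Unit
  | .pop _ => Unit
  | .seq p q => Lbl p ⊕ Lbl q
  | .ite _ pn pt pf => Unit ⊕ (Lbl pn ⊕ (Lbl pt ⊕ Lbl pf))
  | .loop _ p => Unit ⊕ Lbl p

theorem lbl_finite : ∀ p : Prog, Finite (Lbl p)
  | .skip => inferInstanceAs (Finite Unit)
  | .push _ _ => inferInstanceAs (Finite Unit)
  | .pop _ => inferInstanceAs (Finite Unit)
  | .seq p q => by
      have := lbl_finite p; have := lbl_finite q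
      exact inferInstanceAs (Finite (Lbl p ⊕ Lbl q))
  | .ite _ pn pt pf => by
      have := lbl_finite pn; have := lbl_finite pt; have := lbl_finite pf
      exact inferInstanceAs (Finite (Unit ⊕ (Lbl pn ⊕ (Lbl pt ⊕ Lbl pf))))
  | .loop _ p => by
      have := lbl_finite p
      exact inferInstanceAs (Finite (Unit ⊕ Lbl p))

def entry : (p : Prog) → Lbl p
  | .skip => ()
  | .push _ _ => ()
  | .pop _ => ()
  | .seq p _ => Sum.inl (entry p)
  | .ite _ _ _ _ => Sum.inl ()
  | .loop _ _ => Sum.inl ()

abbrev Stm (R : ℕ) (Λ : Type) := TM2.Stmt (fun _ : Fin (R + 1) => Bool) Λ (Option Bool)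

def jump {R : ℕ} {Λ : Type} : Option Λ → Stm R Λ
  | none => .halt
  | some l => .goto fun _ => l

def go {R : ℕ} {Λ : Type} (l : Option Λ) : Stm R Λ := .load (fun _ => none) (jump l)

def reg (R r : ℕ) : Fin (R + 1) := Fin.ofNat (R + 1) r

def code {R : ℕ} {Λ : Type} : (p : Prog) → (Lbl p → Λ) → Option Λ → Lbl p → Stm R Λ
  | .skip, _, next, _ => jump next
  | .push r b, _, next, _ => .push (reg R r) (fun _ => b) (jump next)
  | .pop r, _, next, _ => .pop (reg R r) (fun _ _ => none) (jump next)
  | .seq p q, emb, _, Sum.inl l =>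
      code p (fun l => emb (Sum.inl l)) (some (emb (Sum.inr (entry q)))) l
  | .seq _ q, emb, next, Sum.inr l => code q (fun l => emb (Sum.inr l)) next l
  | .ite r pn pt pf, emb, _, Sum.inl _ =>
      .peek (reg R r) (fun _ o => o)
        (.branch (fun v => v.isNone) (go (some (emb (Sum.inr (Sum.inl (entry pn))))))
          (.branch (fun v => v.getD false)
            (go (some (emb (Sum.inr (Sum.inr (Sum.inl (entry pt)))))))
            (go (some (emb (Sum.inr (Sum.inr (Sum.inr (entry pf)))))))))
  | .ite _ pn _ _, emb, next, Sum.inr (Sum.inl l) =>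
      code pn (fun l => emb (Sum.inr (Sum.inl l))) next l
  | .ite _ _ pt _, emb, next, Sum.inr (Sum.inr (Sum.inl l)) =>
      code pt (fun l => emb (Sum.inr (Sum.inr (Sum.inl l)))) next l
  | .ite _ _ _ pf, emb, next, Sum.inr (Sum.inr (Sum.inr l)) =>
      code pf (fun l => emb (Sum.inr (Sum.inr (Sum.inr l)))) next l
  | .loop r p, emb, next, Sum.inl _ =>
      .peek (reg R r) (fun _ o => o)
        (.branch (fun v => v.isNone) (go next) (go (some (emb (Sum.inr (entry p))))))
  | .loop _ p, emb, _, Sum.inr l =>
      code p (fun l => emb (Sum.inr l)) (some (emb (Sum.inl ()))) l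

def res (R : ℕ) (s : St) : Fin (R + 1) → List Bool := fun k => s k.val

theorem reg_val {R r : ℕ} (h : r ≤ R) : (reg R r).val = r := by
  simp [reg, Fin.ofNat, Nat.mod_eq_of_lt (Nat.lt_succ_of_le h)]

theorem res_reg {R r : ℕ} (h : r ≤ R) (s : St) : res R s (reg R r) = s r := by
  simp [res, reg_val h]

theorem res_update {R r : ℕ} (h : r ≤ R) (s : St) (v : Word) :
    update (res R s) (reg R r) v = res R (update s r v) := by
  funext k
  by_cases hk : k = reg R r
  · subst hk; simp [res, reg_val h]
  · have : k.val ≠ r := fun e => hk (Fin.ext (by rw [reg_val h, e]))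
    simp [res, update_of_ne hk, update_of_ne this]

theorem stepAux_jump {R : ℕ} {Λ : Type} (l : Option Λ) (v : Option Bool)
    (S : Fin (R + 1) → List Bool) : TM2.stepAux (jump (R := R) l) v S = ⟨l, v, S⟩ := by
  cases l <;> rfl

theorem stepAux_go {R : ℕ} {Λ : Type} (l : Option Λ) (v : Option Bool)
    (S : Fin (R + 1) → List Bool) : TM2.stepAux (go (R := R) l) v S = ⟨l, none, S⟩ := by
  simp [go, stepAux_jump]

abbrev Cf (R : ℕ) (Λ : Type) := TM2.Cfg (fun _ : Fin (R + 1) => Bool) Λ (Option Bool)

def iter {R : ℕ} {Λ : Type} (M : Λ → Stm R Λ) (t : ℕ) (c : Option (Cf R Λ)) : Option (Cf R Λ) :=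
  (flip bind (TM2.step M))^[t] c

theorem iter_add {R : ℕ} {Λ : Type} (M : Λ → Stm R Λ) (t t' : ℕ) (c : Option (Cf R Λ)) :
    iter M (t' + t) c = iter M t' (iter M t c) := Function.iterate_add_apply _ _ _ _

theorem iter_one {R : ℕ} {Λ : Type} (M : Λ → Stm R Λ) (l : Λ) (v : Option Bool)
    (S : Fin (R + 1) → List Bool) :
    iter M 1 (some ⟨some l, v, S⟩) = some (TM2.stepAux (M l) v S) := rfl

theorem sim {R : ℕ} {Λ : Type} (M : Λ → Stm R Λ) {p : Prog} {s s' : St} {t : ℕ}
    (h : Exec p s s' t) : p.maxReg ≤ R → ∀ (emb : Lbl p → Λ) (next : Option Λ),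
      (∀ l, M (emb l) = code p emb next l) →
      iter M t (some ⟨some (emb (entry p)), none, res R s⟩) = some ⟨next, none, res R s'⟩ := by
  induction h with
  | skip s =>
      intro _ emb next hM
      rw [iter_one, hM]; simp [code, stepAux_jump]
  | push r b s =>
      intro hR emb next hM
      have hR : r ≤ R := hR
      rw [iter_one, hM]; simp [code, stepAux_jump, res_reg hR, res_update hR]
  | pop r s =>
      intro hR emb next hM
      have hR : r ≤ R := hR
      rw [iter_one, hM]; simp [code, stepAux_jump, res_reg hR, res_update hR]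
  | @seq p q s s' s'' t t' _ _ ih1 ih2 =>
      intro hR emb next hM
      have hR : max p.maxReg q.maxReg ≤ R := hR
      rw [add_comm, iter_add]
      have h1 := ih1 (le_trans (le_max_left _ _) hR) (fun l => emb (Sum.inl l))
        (some (emb (Sum.inr (entry q)))) (fun l => hM (Sum.inl l))
      have h2 := ih2 (le_trans (le_max_right _ _) hR) (fun l => emb (Sum.inr l)) next
        (fun l => hM (Sum.inr l))
      exact (congrArg _ h1).trans h2
  | @iteN r pn pt pf s s' t hs _ ih =>
      intro hR emb next hM
      have hR : max r (max pn.maxReg (max pt.maxReg pf.maxReg)) ≤ R := hR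
      simp only [max_le_iff] at hR
      rw [iter_add, iter_one]
      have h1 := ih hR.2.1 (fun l => emb (Sum.inr (Sum.inl l))) next
        (fun l => hM (Sum.inr (Sum.inl l)))
      rw [← h1]; congr 2
      have := hM (Sum.inl ())
      rw [show entry (Prog.ite r pn pt pf) = Sum.inl () from rfl, this]
      simp [code, stepAux_go, res_reg hR.1, hs]
  | @iteT r pn pt pf s s' t hs _ ih =>
      intro hR emb next hM
      have hR : max r (max pn.maxReg (max pt.maxReg pf.maxReg)) ≤ R := hR
      simp only [max_le_iff] at hR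
      rw [iter_add, iter_one]
      have h1 := ih hR.2.2.1 (fun l => emb (Sum.inr (Sum.inr (Sum.inl l)))) next
        (fun l => hM (Sum.inr (Sum.inr (Sum.inl l))))
      rw [← h1]; congr 2
      have := hM (Sum.inl ())
      rw [show entry (Prog.ite r pn pt pf) = Sum.inl () from rfl, this]
      simp [code, stepAux_go, res_reg hR.1, hs]
  | @iteF r pn pt pf s s' t hs _ ih =>
      intro hR emb next hM
      have hR : max r (max pn.maxReg (max pt.maxReg pf.maxReg)) ≤ R := hR
      simp only [max_le_iff] at hR
      rw [iter_add, iter_one]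
      have h1 := ih hR.2.2.2 (fun l => emb (Sum.inr (Sum.inr (Sum.inr l)))) next
        (fun l => hM (Sum.inr (Sum.inr (Sum.inr l))))
      rw [← h1]; congr 2
      have := hM (Sum.inl ())
      rw [show entry (Prog.ite r pn pt pf) = Sum.inl () from rfl, this]
      simp [code, stepAux_go, res_reg hR.1, hs]
  | @loopN r p s hs =>
      intro hR emb next hM
      have hR : max r p.maxReg ≤ R := hR
      simp only [max_le_iff] at hR
      rw [iter_one]
      have := hM (Sum.inl ())
      rw [show entry (Prog.loop r p) = Sum.inl () from rfl, this]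
      simp [code, stepAux_go, res_reg hR.1, hs]
  | @loopC r p s s' s'' t t' hs _ _ ih1 ih2 =>
      intro hR emb next hM
      have hR' : max r p.maxReg ≤ R := hR
      simp only [max_le_iff] at hR'
      rw [iter_add, iter_add, iter_one]
      have h1 := ih1 hR'.2 (fun l => emb (Sum.inr l)) (some (emb (Sum.inl ())))
        (fun l => hM (Sum.inr l))
      have h2 := ih2 hR emb next hM
      rw [← h2]; congr 1
      rw [show entry (Prog.loop r p) = Sum.inl () from rfl, ← h1]; congr 2
      have := hM (Sum.inl ())
      rw [this]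
      obtain ⟨b, l, hl⟩ := List.exists_cons_of_ne_nil hs
      simp [code, stepAux_go, res_reg hR'.1, hl]

/-- Running within a time bound. -/
def Run (p : Prog) (s s' : St) (T : ℕ) : Prop := ∃ t ≤ T, Exec p s s' t

noncomputable def machine (p : Prog) : FinTM2 where
  K := Fin (p.maxReg + 1 + 1)
  k₀ := reg _ 0
  k₁ := reg _ 1
  Γ _ := Bool
  Λ := Lbl p
  main := entry p
  ΛFin := @Fintype.ofFinite _ (lbl_finite p)
  σ := Option Bool
  initialState := none
  m := code p id none

theorem polyTimeComputable_of_prog {α β : Type} (ea : α → Word) (eb : β → Word) (f : α → β)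
    (p : Prog) (q : Polynomial ℕ)
    (h : ∀ a, Run p (update (fun _ => []) 0 (ea a)) (update (fun _ => []) 1 (eb (f a)))
      (q.eval (ea a).length)) :
    Crest.Complexity.PolyTimeComputable ea eb f := by
  refine ⟨{ tm := machine p, inputAlphabet := Equiv.refl _, outputAlphabet := Equiv.refl _,
            time := q, outputsFun := fun a => ?_ }⟩
  refine { steps := (h a).choose, evals_in_steps := ?_, steps_le_m := (h a).choose_spec.1 }
  have hs := sim (R := p.maxReg + 1) (code p id none) (h a).choose_spec.2 (Nat.le_succ _) id none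
    (fun _ => rfl)
  have e0 : initList (machine p) (List.map (Equiv.refl Bool).invFun (ea a)) =
      (⟨some (entry p), none, res _ (update (fun _ => []) 0 (ea a))⟩ : Cf (p.maxReg + 1) (Lbl p)) := by
    rw [← res_update (Nat.zero_le _)]
    unfold initList
    congr 1
    funext k
    by_cases hk : k = reg (p.maxReg + 1) 0
    · subst hk; simp [machine]
    · exact (dif_neg hk).trans (update_of_ne (β := fun _ => List Bool) hk _
        (res (p.maxReg + 1) fun _ => [])).symm
  have e1 : haltList (machine p) (List.map (Equiv.refl Bool).invFun (eb (f a))) =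
      (⟨none, none, res _ (update (fun _ => []) 1 (eb (f a)))⟩ : Cf (p.maxReg + 1) (Lbl p)) := by
    rw [← res_update (Nat.le_add_left _ _)]
    unfold haltList
    congr 1
    funext k
    by_cases hk : k = reg (p.maxReg + 1) 1
    · subst hk; simp [machine]
    · exact (dif_neg hk).trans (update_of_ne (β := fun _ => List Bool) hk _
        (res (p.maxReg + 1) fun _ => [])).symm
  simp only [Option.map_some]
  exact (congrArg (fun c => iter (code p id none) _ (some c)) e0).trans
    (hs.trans (congrArg some e1.symm))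

end Crest.Agent.PT
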