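import Crest.Agent.Lib.PT.Basic

/-!
Binary arithmetic in polynomial time.
-/

set_option autoImplicit false
set_option linter.unusedVariables false

namespace Crest.Agent.PT

open Function Crest.Agent.PT.Rp

section
variable {α β γ : Type} [Rp α] [Rp β] [Rp γ]

theorem PTime.nat_iff {f : α → ℕ} : PTime f ↔ PTime fun a => (f a).bits :=
  ⟨fun h _ => h (), fun h _ => h ()⟩

@[fun_prop] theorem PTime.bits {f : α → ℕ} (hf : PTime f) : PTime fun a => (f a).bits :=
  PTime.nat_iff.1 hf

@[fun_prop] theorem PTime.div2 {f : α → ℕ} (hf : PTime f) : PTime fun a => (f a).div2 :=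
  PTime.nat_iff.2 <| hf.bits.tail.congr fun a => Nat.div2_bits_eq_tail _

@[fun_prop] theorem PTime.bodd {f : α → ℕ} (hf : PTime f) : PTime fun a => (f a).bodd :=
  hf.bits.headI.congr fun a => Nat.bodd_eq_bits_head _

theorem bits_eq_nil {n : ℕ} : n.bits = [] ↔ n = 0 := by
  constructor
  · intro h
    have := Nat.size_eq_bits_len n
    rw [h] at this
    exact Nat.size_eq_zero.1 this.symm
  · rintro rfl; exact Nat.zero_bits

/-- Zero test. -/
def isZ (n : ℕ) : Prop := n = 0

instance (n : ℕ) : Decidable (isZ n) := inferInstanceAs (Decidable (n = 0))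

@[fun_prop] theorem PTime.isZ {f : α → ℕ} (hf : PTime f) : PTime fun a => isZ (f a) :=
  hf.bits.eq_nil.congr fun a => by simp [PT.isZ, bits_eq_nil]

@[fun_prop] theorem PTime.bit {b : α → Bool} {f : α → ℕ} (hb : PTime b) (hf : PTime f) :
    PTime fun a => Nat.bit (b a) (f a) := by
  refine PTime.nat_iff.2 <| PTime.congr
    (f := fun a => if PT.isZ (f a) ∧ b a = false then [] else b a :: (f a).bits)
    (by fun_prop) fun a => ?_
  split_ifs with h
  · obtain ⟨h1, h2⟩ := h
    rw [show f a = 0 from h1, h2]; exact Nat.zero_bits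
  · refine Nat.bits_append_bit _ _ fun h0 => ?_
    by_contra h1
    exact h ⟨h0, by simpa using h1⟩

@[fun_prop] theorem PU.size {f : α → ℕ} (hf : PTime f) : PU fun a => (f a).size := by
  have := PU.length hf.bits
  simpa only [Nat.size_eq_bits_len] using this

/-- Right shift. -/
def shr (x k : ℕ) : ℕ := x / 2 ^ k

theorem shr_le (x k : ℕ) : shr x k ≤ x := Nat.div_le_self _ _

theorem shr_succ (x k : ℕ) : shr x (k + 1) = shr x k / 2 := by
  rw [shr, shr, pow_succ, Nat.div_div_eq_div_mul]

theorem shr_hi {L k : ℕ} (x : ℕ) (h : k < L) : shr x (L - k) = shr x (L - (k + 1)) / 2 := by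
  rw [← shr_succ]; congr 1; omega

theorem shr_of_lt {x L : ℕ} (h : x < 2 ^ L) : shr x L = 0 := Nat.div_eq_of_lt h

theorem shr_size (x : ℕ) {L : ℕ} (h : x.size ≤ L) : shr x L = 0 := shr_of_lt (Nat.size_le.1 h)

@[simp] theorem shr_zero (x : ℕ) : shr x 0 = x := by simp [shr]

@[fun_prop] theorem PTime.shr {f k : α → ℕ} (hf : PTime f) (hk : PU k) :
    PTime fun a => shr (f a) (k a) :=
  PTime.loop (fun a k => PT.shr (f a) k) (fun _ s _ => s.div2) hk (by simpa using hf)
    (by fun_prop) (fun a k _ => shr_succ _ _) hf.sz (fun a k _ => sz_nat_mono (shr_le _ _))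

theorem bodd_iff (n : ℕ) : n.bodd = true ↔ n % 2 = 1 := by
  rw [Nat.mod_two_of_bodd]; cases n.bodd <;> simp

theorem bit_bodd (u n : ℕ) : Nat.bit u.bodd n = 2 * n + u % 2 := by
  rw [Nat.bit_val, Nat.mod_two_of_bodd]

theorem sz_succ_le (n : ℕ) : sz (n + 1) ≤ sz n + 1 := by
  have := lt_two_pow_sz n
  rw [sz_nat_le, pow_succ]; omega

theorem sz_add_le (m n : ℕ) : sz (m + n) ≤ sz m + sz n + 1 := by
  have h1 := lt_two_pow_sz m
  have h2 := lt_two_pow_sz n
  have h3 : 2 ^ sz m ≤ 2 ^ (sz m + sz n) := Nat.pow_le_pow_right (by omega) (by omega)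
  have h4 : 2 ^ sz n ≤ 2 ^ (sz m + sz n) := Nat.pow_le_pow_right (by omega) (by omega)
  rw [sz_nat_le, pow_succ]; omega

theorem sz_mul_le (m n : ℕ) : sz (m * n) ≤ sz m + sz n := by
  rw [sz_nat_le, pow_add]
  exact Nat.mul_lt_mul'' (lt_two_pow_sz m) (lt_two_pow_sz n)

theorem sz_pow_le (m k : ℕ) : sz (m ^ k) ≤ k * sz m + 1 := by
  induction k with
  | zero => simp [sz_nat]
  | succ k ih => have := sz_mul_le (m ^ k) m; rw [pow_succ, add_mul]; omega

@[fun_prop] theorem PTime.succ {f : α → ℕ} (hf : PTime f) : PTime fun a => (f a).succ := by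
  have := PTime.loop (fun a k => PT.shr (f a) ((f a).size - k) + 1)
    (fun a s k => if (PT.shr (f a) ((f a).size - (k + 1))).bodd = true then Nat.bit false s
      else Nat.bit true (PT.shr (f a) ((f a).size - (k + 1))).div2) (PU.size hf)
    ((PTime.const 1).congr fun a => by simp [shr_size]) (by fun_prop)
    (fun a k hk => by
      rw [shr_hi _ hk]
      simp only [bodd_iff, Nat.bit_val, Nat.div2_val]
      split_ifs <;> simp <;> omega)
    (hf.sz.add (PB.const 1))
    (fun a k _ => (sz_succ_le _).trans (Nat.add_le_add_right (sz_nat_mono (shr_le _ _)) _))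
  simpa using this

@[fun_prop] theorem PTime.pred {f : α → ℕ} (hf : PTime f) : PTime fun a => (f a).pred := by
  have := PTime.loop (fun a k => PT.shr (f a) ((f a).size - k) - 1)
    (fun a s k => if (PT.shr (f a) ((f a).size - (k + 1))).bodd = true then
        Nat.bit false (PT.shr (f a) ((f a).size - (k + 1))).div2
      else if PT.isZ (PT.shr (f a) ((f a).size - (k + 1))) then 0 else Nat.bit true s) (PU.size hf)
    ((PTime.const 0).congr fun a => by simp [shr_size]) (by fun_prop)
    (fun a k hk => by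
      rw [shr_hi _ hk]
      simp only [bodd_iff, Nat.bit_val, Nat.div2_val, PT.isZ, Bool.toNat_true, Bool.toNat_false]
      split_ifs <;> omega)
    hf.sz
    (fun a k _ => sz_nat_mono ((Nat.sub_le _ _).trans (shr_le _ _)))
  simpa using this

@[fun_prop] theorem PTime.add {f g : α → ℕ} (hf : PTime f) (hg : PTime g) :
    PTime fun a => f a + g a := by
  have := PTime.loop (fun a k => PT.shr (f a) ((f a).size + (g a).size - k) +
      PT.shr (g a) ((f a).size + (g a).size - k))
    (fun a s k => if (PT.shr (g a) ((f a).size + (g a).size - (k + 1))).bodd = true then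
        (Nat.bit (PT.shr (f a) ((f a).size + (g a).size - (k + 1))).bodd s).succ
      else Nat.bit (PT.shr (f a) ((f a).size + (g a).size - (k + 1))).bodd s)
    ((PU.size hf).add (PU.size hg))
    ((PTime.const 0).congr fun a => by simp [shr_size]) (by fun_prop)
    (fun a k hk => by
      rw [shr_hi (f a) hk, shr_hi (g a) hk]
      simp only [bodd_iff, bit_bodd]
      split_ifs <;> omega)
    ((hf.sz.add hg.sz).add (PB.const 1))
    (fun a k _ => (sz_nat_mono (Nat.add_le_add (shr_le _ _) (shr_le _ _))).trans (sz_add_le _ _))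
  simpa using this

@[fun_prop] theorem PTime.sub {f g : α → ℕ} (hf : PTime f) (hg : PTime g) :
    PTime fun a => f a - g a := by
  have := PTime.loop (fun a k => (PT.shr (f a) ((f a).size + (g a).size - k) -
      PT.shr (g a) ((f a).size + (g a).size - k), PT.shr (g a) ((f a).size + (g a).size - k) -
      PT.shr (f a) ((f a).size + (g a).size - k)))
    (fun a s k =>
      (if PT.isZ s.2 then
        if (PT.shr (g a) ((f a).size + (g a).size - (k + 1))).bodd = true then
          (Nat.bit (PT.shr (f a) ((f a).size + (g a).size - (k + 1))).bodd s.1).pred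
        else Nat.bit (PT.shr (f a) ((f a).size + (g a).size - (k + 1))).bodd s.1
      else 0,
      if PT.isZ s.1 then
        if (PT.shr (f a) ((f a).size + (g a).size - (k + 1))).bodd = true then
          (Nat.bit (PT.shr (g a) ((f a).size + (g a).size - (k + 1))).bodd s.2).pred
        else Nat.bit (PT.shr (g a) ((f a).size + (g a).size - (k + 1))).bodd s.2
      else 0))
    ((PU.size hf).add (PU.size hg))
    ((PTime.const (0, 0)).congr fun a => by simp [shr_size]) (by fun_prop)
    (fun a k hk => by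
      rw [shr_hi (f a) hk, shr_hi (g a) hk]
      simp only [bodd_iff, bit_bodd, PT.isZ, Nat.pred_eq_sub_one]
      congr 1 <;> split_ifs <;> omega)
    (hf.sz.add hg.sz)
    (fun a k _ => by
      rw [sz_prod]
      exact Nat.add_le_add (sz_nat_mono ((Nat.sub_le _ _).trans (shr_le _ _)))
        (sz_nat_mono ((Nat.sub_le _ _).trans (shr_le _ _))))
  simpa using this.fst

@[fun_prop] theorem PTime.le {f g : α → ℕ} (hf : PTime f) (hg : PTime g) :
    PTime fun a => f a ≤ g a :=
  (hf.sub hg).isZ.congr fun a => by simp [PT.isZ, Nat.sub_eq_zero_iff_le]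

@[fun_prop] theorem PTime.lt {f g : α → ℕ} (hf : PTime f) (hg : PTime g) :
    PTime fun a => f a < g a :=
  (hg.le hf).not.congr fun a => by simp

@[fun_prop] theorem PTime.eq {f g : α → ℕ} (hf : PTime f) (hg : PTime g) :
    PTime fun a => f a = g a :=
  ((hf.le hg).and (hg.le hf)).congr fun a => by simp [le_antisymm_iff]

@[fun_prop] theorem PTime.mul {f g : α → ℕ} (hf : PTime f) (hg : PTime g) :
    PTime fun a => f a * g a := by
  have := PTime.loop (fun a k => PT.shr (f a) ((f a).size - k) * g a)
    (fun a s k => if (PT.shr (f a) ((f a).size - (k + 1))).bodd = true then Nat.bit false s + g a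
      else Nat.bit false s) (PU.size hf)
    ((PTime.const 0).congr fun a => by simp [shr_size]) (by fun_prop)
    (fun a k hk => by
      rw [shr_hi (f a) hk]
      simp only [bodd_iff, Nat.bit_val]
      generalize PT.shr (f a) _ = u
      have := Nat.div_add_mod u 2
      split_ifs with h
      · rw [h] at this; conv_lhs => rw [← this]
        simp; ring
      · rw [show u % 2 = 0 by omega] at this; conv_lhs => rw [← this]
        simp; ring)
    (hf.sz.add hg.sz)
    (fun a k _ => (sz_nat_mono (Nat.mul_le_mul_right _ (shr_le _ _))).trans (sz_mul_le _ _))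
  simpa using this

theorem divmod_step (u y : ℕ) :
    (u / y, u % y) = if 0 < y ∧ y ≤ 2 * (u / 2 % y) + u % 2 then
      (2 * (u / 2 / y) + 1, 2 * (u / 2 % y) + u % 2 - y)
    else (2 * (u / 2 / y) + 0, 2 * (u / 2 % y) + u % 2) := by
  rcases Nat.eq_zero_or_pos y with rfl | hy
  · simp; omega
  have h1 := Nat.div_add_mod (u / 2) y
  have h2 := Nat.mod_lt (u / 2) hy
  have h3 := Nat.div_add_mod u 2
  have h4 := Nat.mod_lt u (show 0 < 2 by omega)
  split_ifs with h
  · rw [Prod.mk.injEq, Nat.div_mod_unique hy]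
    refine ⟨?_, by omega⟩
    have : y * (2 * (u / 2 / y) + 1) = 2 * (y * (u / 2 / y)) + y := by ring
    omega
  · rw [Prod.mk.injEq, Nat.div_mod_unique hy]
    refine ⟨?_, by omega⟩
    have : y * (2 * (u / 2 / y) + 0) = 2 * (y * (u / 2 / y)) := by ring
    omega

theorem PTime.divmod {f g : α → ℕ} (hf : PTime f) (hg : PTime g) :
    PTime fun a => (f a / g a, f a % g a) := by
  have := PTime.loop (fun a k => (PT.shr (f a) ((f a).size - k) / g a,
      PT.shr (f a) ((f a).size - k) % g a))
    (fun a s k => if 0 < g a ∧ g a ≤ Nat.bit (PT.shr (f a) ((f a).size - (k + 1))).bodd s.2 then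
      (Nat.bit true s.1, Nat.bit (PT.shr (f a) ((f a).size - (k + 1))).bodd s.2 - g a)
      else (Nat.bit false s.1, Nat.bit (PT.shr (f a) ((f a).size - (k + 1))).bodd s.2))
    (PU.size hf)
    ((PTime.const (0, 0)).congr fun a => by simp [shr_size]) (by fun_prop)
    (fun a k hk => by
      rw [shr_hi (f a) hk, divmod_step]
      simp only [bit_bodd]
      simp only [Nat.bit_val]
      rfl)
    (hf.sz.add hf.sz)
    (fun a k _ => by
      rw [sz_prod]
      exact Nat.add_le_add (sz_nat_mono ((Nat.div_le_self _ _).trans (shr_le _ _)))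
        (sz_nat_mono ((Nat.mod_le _ _).trans (shr_le _ _))))
  simpa using this

@[fun_prop] theorem PTime.div {f g : α → ℕ} (hf : PTime f) (hg : PTime g) :
    PTime fun a => f a / g a := (hf.divmod hg).fst

@[fun_prop] theorem PTime.mod {f g : α → ℕ} (hf : PTime f) (hg : PTime g) :
    PTime fun a => f a % g a := (hf.divmod hg).snd

@[fun_prop] theorem PTime.pow {f k : α → ℕ} (hf : PTime f) (hk : PU k) :
    PTime fun a => f a ^ k a :=
  PTime.loop (fun a k => f a ^ k) (fun a s _ => s * f a) hk (by simpa using PTime.const _)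
    (by fun_prop) (fun a k _ => pow_succ _ _) ((hk.pb.mul hf.sz).add (PB.const 1))
    (fun a k hk => (sz_pow_le _ _).trans (Nat.add_le_add_right (Nat.mul_le_mul_right _ hk) _))

@[fun_prop] theorem PU.ptime {n : α → ℕ} (hn : PU n) : PTime n :=
  PTime.loop (fun _ k => k) (fun _ s _ => s.succ) hn (PTime.const _) (by fun_prop)
    (fun _ _ _ => rfl) hn.pb (fun a k hk => (sz_nat_le_self k).trans hk)

@[fun_prop] theorem PTime.val {f : α → Un} (hf : PTime f) : PTime fun a => (f a).val :=
  (PU.val hf).ptime

@[fun_prop] theorem PTime.length {f : α → Word} (hf : PTime f) : PTime fun a => (f a).length :=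
  (PU.length hf).ptime

@[fun_prop] theorem PTime.lead {f : α → Word} (hf : PTime f) : PTime fun a => lead (f a) :=
  (PU.lead hf).ptime

@[fun_prop] theorem PTime.size {f : α → ℕ} (hf : PTime f) : PTime fun a => (f a).size :=
  (PU.size hf).ptime

theorem PU.of_pb {f : α → ℕ} (hf : PTime f) (hb : PB f) : PU f := by
  have := PTime.loop (fun a k => Un.mk (PT.shr (f a) ((f a).size - k)))
    (fun a s k => Un.mk (s.val + s.val +
      if (PT.shr (f a) ((f a).size - (k + 1))).bodd = true then 1 else 0)) (PU.size hf)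
    ((PTime.const (Un.mk 0)).congr fun a => by simp [shr_size]) (by fun_prop)
    (fun a k hk => by
      rw [shr_hi (f a) hk]
      simp only [bodd_iff]
      congr 1
      split_ifs <;> omega)
    hb (fun a k _ => by simpa using shr_le _ _)
  simpa [PU] using this

theorem PU.of_le {f g : α → ℕ} (hf : PTime f) (hg : PU g) (h : ∀ a, f a ≤ g a) : PU f :=
  PU.of_pb hf (hg.pb.mono h)

@[fun_prop] theorem PU.sub' {m n : α → ℕ} (hm : PU m) (hn : PTime n) : PU fun a => m a - n a :=
  PU.of_le (hm.ptime.sub hn) hm fun _ => Nat.sub_le _ _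

@[fun_prop] theorem PU.div {m n : α → ℕ} (hm : PU m) (hn : PTime n) : PU fun a => m a / n a :=
  PU.of_le (hm.ptime.div hn) hm fun _ => Nat.div_le_self _ _

@[fun_prop] theorem PU.mod {m n : α → ℕ} (hm : PU m) (hn : PTime n) : PU fun a => m a % n a :=
  PU.of_le (hm.ptime.mod hn) hm fun _ => Nat.mod_le _ _

theorem PU.two_pow_size {m : α → ℕ} (hm : PU m) : PU fun a => 2 ^ (m a).size :=
  PU.of_le ((PTime.const 2).pow (PU.size hm.ptime)) (((PU.const 2).mul hm).add (PU.const 1))
    fun a => by
      rcases Nat.eq_zero_or_pos (m a) with h | h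
      · simp [h]
      · have h1 := Nat.size_pos.2 h
        have h2 : 2 ^ ((m a).size - 1) ≤ m a := Nat.lt_size.1 (by omega)
        obtain ⟨k, hk⟩ : ∃ k, (m a).size = k + 1 := ⟨(m a).size - 1, by omega⟩
        rw [hk] at h2 ⊢
        simp only [Nat.add_sub_cancel] at h2
        rw [pow_succ]; omega

theorem bound_range {σ : Type} [Rp σ] {n : α → ℕ} {g : α → ℕ → σ} (hn : PU n)
    (hg : PTime fun p : α × Un => g p.1 p.2.val) :
    ∃ B : α → ℕ, PB B ∧ ∀ a k, k ≤ n a → PT.sz (g a k) ≤ B a := by
  obtain ⟨q, hq⟩ := hg.sz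
  exact ⟨_, (PB.sz.add hn.pb).eval q, fun a k hk => (hq (a, Un.mk k)).trans
    (eval_mono q (by simpa using hk))⟩

theorem PTime.sum_range {n : α → ℕ} {g : α → ℕ → ℕ} (hn : PU n)
    (hg : PTime fun p : α × Un => g p.1 p.2.val) :
    PTime fun a => ∑ i ∈ Finset.range (n a), g a i := by
  obtain ⟨B, hB, hb⟩ := bound_range hn hg
  refine PTime.loop (fun a k => ∑ i ∈ Finset.range k, g a i) (fun a s k => s + g a k) hn
    (by simpa using PTime.const _)
    (PTime.add (by fun_prop) (hg.comp (f := fun p : α × ℕ × Un => (p.1, p.2.2)) (by fun_prop)))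
    (fun a k _ => Finset.sum_range_succ _ _) (hn.pb.mul (hB.add (PB.const 1)))
    (fun a k hk => le_trans ?_ (Nat.mul_le_mul_right _ hk))
  induction k with
  | zero => simp [sz_nat]
  | succ k ih =>
      have h1 := ih (by omega)
      have h2 := hb a k (by omega)
      have h3 := sz_add_le (∑ i ∈ Finset.range k, g a i) (g a k)
      rw [Finset.sum_range_succ, add_mul k]; omega

theorem PTime.prod_range {n : α → ℕ} {g : α → ℕ → ℕ} (hn : PU n)
    (hg : PTime fun p : α × Un => g p.1 p.2.val) :
    PTime fun a => ∏ i ∈ Finset.range (n a), g a i := by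
  obtain ⟨B, hB, hb⟩ := bound_range hn hg
  refine PTime.loop (fun a k => ∏ i ∈ Finset.range k, g a i) (fun a s k => s * g a k) hn
    (by simpa using PTime.const _)
    (PTime.mul (by fun_prop) (hg.comp (f := fun p : α × ℕ × Un => (p.1, p.2.2)) (by fun_prop)))
    (fun a k _ => Finset.prod_range_succ _ _) ((hn.pb.mul hB).add (PB.const 1))
    (fun a k hk => le_trans ?_ (Nat.add_le_add_right (Nat.mul_le_mul_right _ hk) _))
  induction k with
  | zero => simp [sz_nat]
  | succ k ih =>
      have h1 := ih (by omega)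
      have h2 := hb a k (by omega)
      have h3 := sz_mul_le (∏ i ∈ Finset.range k, g a i) (g a k)
      rw [Finset.prod_range_succ, add_mul k]; omega

@[fun_prop] theorem PTime.factorial {n : α → ℕ} (hn : PU n) : PTime fun a => (n a).factorial :=
  (PTime.prod_range (g := fun _ i => i + 1) hn (by fun_prop)).congr fun a => by
    rw [Finset.prod_range_add_one_eq_factorial]

@[fun_prop] theorem PTime.choose {n k : α → ℕ} (hn : PU n) (hk : PU k) :
    PTime fun a => (n a).choose (k a) := by
  refine PTime.congr (f := fun a => if k a ≤ n a then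
    (n a).factorial / ((k a).factorial * (n a - k a).factorial) else 0) (by fun_prop) fun a => ?_
  split_ifs with h
  · exact Nat.choose_eq_factorial_div_factorial h
  · exact Nat.choose_eq_zero_of_lt (by omega)

end

end Crest.Agent.PT
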