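import Crest.Agent.Lib.PT.Int

/-!
Polynomial-time readers for the self-delimiting codes of `Crest.Enc`.
-/

set_option autoImplicit false
set_option linter.unusedVariables false

namespace Crest.Agent.PT

open Function Crest.Agent.PT.Rp Crest.Enc

/-- One step of the reader of `natCode`: (rest, value so far, current power of two). -/
def rdStep (s : Word × ℕ × ℕ) : Word × ℕ × ℕ :=
  if s.1.headI = true then
    (s.1.tail.tail, (if s.1.tail.headI = true then s.2.1 + s.2.2 else s.2.1), 2 * s.2.2)
  else s

/-- The value of the `natCode` at the start of a word. -/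
def natVal (x : Word) : ℕ := (rdStep^[x.length] (x, 0, 1)).2.1

/-- What is left after the `natCode` at the start of a word. -/
def natRest (x : Word) : Word := (rdStep^[x.length] (x, 0, 1)).1.tail.tail

/-- The value of the `intCode` at the start of a word. -/
def intVal (x : Word) : ℤ := if x.headI = true then -(natVal x.tail : ℤ) else (natVal x.tail : ℤ)

/-- What is left after the `intCode` at the start of a word. -/
def intRest (x : Word) : Word := natRest x.tail

theorem rd_inv (x : Word) (k : ℕ) :
    (rdStep^[k] (x, 0, 1)).1.length ≤ x.length ∧
      (rdStep^[k] (x, 0, 1)).2.1 < (rdStep^[k] (x, 0, 1)).2.2 ∧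
      (rdStep^[k] (x, 0, 1)).2.2 ≤ 2 ^ k := by
  induction k with
  | zero => simp
  | succ k ih =>
      rw [iterate_succ_apply']
      generalize rdStep^[k] (x, 0, 1) = s at ih ⊢
      obtain ⟨h1, h2, h3⟩ := ih
      unfold rdStep
      rw [pow_succ]
      split_ifs
      · simp only [List.length_tail]; omega
      · simp only [List.length_tail]; omega
      · omega

theorem natVal_lt (x : Word) : natVal x < 2 ^ x.length :=
  (rd_inv x _).2.1.trans_le (rd_inv x _).2.2

theorem length_natRest_le (x : Word) : (natRest x).length ≤ x.length := by
  have := (rd_inv x x.length).1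
  simp only [natRest, List.length_tail]; omega

theorem length_intRest_le (x : Word) : (intRest x).length ≤ x.length := by
  have := length_natRest_le x.tail
  simp only [intRest, List.length_tail] at *; omega

theorem abs_intVal_lt (x : Word) : |intVal x| < 2 ^ x.length := by
  have h1 := natVal_lt x.tail
  have h2 : 2 ^ x.tail.length ≤ 2 ^ x.length := Nat.pow_le_pow_right (by omega) (by simp)
  have h3 : (natVal x.tail : ℤ) < 2 ^ x.length := by exact_mod_cast h1.trans_le h2
  unfold intVal
  split_ifs
  · rwa [abs_neg, abs_of_nonneg (by positivity)]
  · rwa [abs_of_nonneg (by positivity)]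

/-- The number with the given binary digits, least significant first. -/
def ofB : Word → ℕ
  | [] => 0
  | b :: l => Nat.bit b (ofB l)

theorem ofB_bits (n : ℕ) : ofB n.bits = n := by
  induction n using Nat.binaryRec' with
  | zero => simp [ofB]
  | bit b n h ih => rw [Nat.bits_append_bit _ _ h, ofB, ih]

theorem rd_digits (l r : Word) (k v p : ℕ) (hk : l.length ≤ k) :
    rdStep^[k] ((l.map fun b => [true, b]).flatten ++ false :: r, v, p) =
      (false :: r, v + p * ofB l, p * 2 ^ l.length) := by
  induction l generalizing k v p with
  | nil =>
      simp only [List.map_nil, List.flatten_nil, List.nil_append, ofB, List.length_nil]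
      rw [iterate_fixed]
      · simp
      · simp [rdStep]
  | cons b l ih =>
      obtain ⟨k, rfl⟩ : ∃ k', k = k' + 1 := ⟨k - 1, by simp at hk; omega⟩
      rw [iterate_succ_apply]
      have : rdStep (((b :: l).map fun b => [true, b]).flatten ++ false :: r, v, p) =
          ((l.map fun b => [true, b]).flatten ++ false :: r, v + p * b.toNat, 2 * p) := by
        cases b <;> simp [rdStep]
      rw [this, ih _ _ _ (by simpa using hk), ofB, Nat.bit_val, List.length_cons, pow_succ]
      congr 2 <;> ring

theorem length_digits (l : Word) :
    ((l.map fun b => [true, b]).flatten).length = 2 * l.length := by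
  induction l with
  | nil => simp
  | cons b l ih => simp only [List.map_cons, List.flatten_cons, List.length_append, ih]; simp; omega

theorem length_natCode (n : ℕ) : (natCode n).length = 2 * n.size + 2 := by
  simp only [natCode, List.length_append, length_digits, Nat.size_eq_bits_len]; rfl

theorem lt_two_pow_length_natCode (n : ℕ) : n < 2 ^ (natCode n).length :=
  (Nat.lt_size_self n).trans_le (Nat.pow_le_pow_right (by omega) (by rw [length_natCode]; omega))

theorem rd_natCode (n : ℕ) (r : Word) :
    rdStep^[(natCode n ++ r).length] (natCode n ++ r, 0, 1) =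
      (false :: false :: r, n, 2 ^ n.size) := by
  have h : natCode n ++ r = (n.bits.map fun b => [true, b]).flatten ++ false :: false :: r := by
    simp [natCode]
  have hl : n.bits.length ≤ (natCode n ++ r).length := by
    rw [List.length_append, length_natCode, Nat.size_eq_bits_len]; omega
  generalize (natCode n ++ r).length = k at hl
  rw [h, rd_digits _ _ _ _ _ hl, ofB_bits, Nat.size_eq_bits_len]
  simp

@[simp] theorem natVal_natCode (n : ℕ) (r : Word) : natVal (natCode n ++ r) = n := by
  rw [natVal, rd_natCode]

@[simp] theorem natRest_natCode (n : ℕ) (r : Word) : natRest (natCode n ++ r) = r := by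
  rw [natRest, rd_natCode]; rfl

@[simp] theorem intVal_intCode (z : ℤ) (r : Word) : intVal (intCode z ++ r) = z := by
  simp only [intVal, intCode, List.cons_append, List.headI_cons, List.tail_cons, natVal_natCode,
    decide_eq_true_eq]
  split_ifs <;> omega

@[simp] theorem intRest_intCode (z : ℤ) (r : Word) : intRest (intCode z ++ r) = r := by
  simp [intRest, intCode]

/-- Skipping `k` records of a list of records. -/
theorem iterate_skip {ι : Type} (skip : Word → Word) (c : ι → Word)
    (h : ∀ i r, skip (c i ++ r) = r) (L : List ι) (r : Word) (k : ℕ) (hk : k ≤ L.length) :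
    skip^[k] ((L.map c).flatten ++ r) = ((L.drop k).map c).flatten ++ r := by
  induction k generalizing L with
  | zero => simp
  | succ k ih =>
      cases L with
      | nil => simp at hk
      | cons i L =>
          rw [iterate_succ_apply, List.map_cons, List.flatten_cons, List.append_assoc, h,
            ih L (by simpa using hk), List.drop_succ_cons]

theorem iterate_skip_all {m : ℕ} (skip : Word → Word) (c : Fin m → Word)
    (h : ∀ i r, skip (c i ++ r) = r) (r : Word) :
    skip^[m] (((List.finRange m).map c).flatten ++ r) = r := by
  have := iterate_skip skip c h (List.finRange m) r m (by simp)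
  rwa [List.drop_of_length_le (by simp), List.map_nil, List.flatten_nil, List.nil_append] at this

theorem iterate_skip_fin {m : ℕ} (skip : Word → Word) (c : Fin m → Word)
    (h : ∀ i r, skip (c i ++ r) = r) (r : Word) (e : Fin m) :
    ∃ r', skip^[e] (((List.finRange m).map c).flatten ++ r) = c e ++ r' := by
  have he : (e : ℕ) < (List.finRange m).length := by simp
  rw [iterate_skip skip c h (List.finRange m) r e he.le, List.drop_eq_getElem_cons he]
  refine ⟨(((List.finRange m).drop (e + 1)).map c).flatten ++ r, ?_⟩
  rw [List.map_cons, List.flatten_cons, List.append_assoc]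
  simp

theorem length_flatten_fin {m : ℕ} (c : Fin m → Word) :
    (((List.finRange m).map c).flatten).length = ∑ e, (c e).length := by
  rw [List.length_flatten, List.map_map, Fin.sum_univ_def]; rfl

theorem le_length_flatten_fin {m : ℕ} (c : Fin m → Word) (h : ∀ e, 1 ≤ (c e).length) :
    m ≤ (((List.finRange m).map c).flatten).length := by
  rw [length_flatten_fin]
  simpa using Finset.sum_le_sum (s := Finset.univ) fun e _ => h e

theorem length_iterate_le {skip : Word → Word} (hl : ∀ x, (skip x).length ≤ x.length) (k : ℕ)
    (x : Word) : (skip^[k] x).length ≤ x.length := by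
  induction k with
  | zero => simp
  | succ k ih => rw [iterate_succ_apply']; exact (hl _).trans ih

section
variable {α : Type} [Rp α]

theorem PTime.rdStep' : PTime rdStep := by
  unfold rdStep; fun_prop

theorem PTime.rdRun {f : α → Word} (hf : PTime f) :
    PTime fun a => rdStep^[(f a).length] (f a, 0, 1) :=
  PTime.loop (fun a k => rdStep^[k] (f a, 0, 1)) (fun _ s _ => rdStep s) (PU.length hf)
    (by simpa using hf.pair (PTime.const _)) (PTime.rdStep'.comp (by fun_prop))
    (fun a k _ => iterate_succ_apply' _ _ _)
    (((PB.const 3).mul hf.sz).add (PB.const 2)) (fun a k hk => by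
      obtain ⟨h1, h2, h3⟩ := rd_inv (f a) k
      generalize rdStep^[k] (f a, 0, 1) = s at h1 h2 h3 ⊢
      obtain ⟨s1, s2, s3⟩ := s
      have h4 : 2 ^ k < 2 ^ ((f a).length + 1) := Nat.pow_lt_pow_right (by omega) (by omega)
      have h5 : PT.sz s2 ≤ (f a).length + 1 := sz_nat_le.2 (by simp only at h2 h3; omega)
      have h6 : PT.sz s3 ≤ (f a).length + 1 := sz_nat_le.2 (by simp only at h2 h3; omega)
      simp only [sz_prod, sz_word] at h1 ⊢
      omega)

@[fun_prop] theorem PTime.natVal {f : α → Word} (hf : PTime f) : PTime fun a => natVal (f a) :=
  (PTime.rdRun hf).snd.fst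

@[fun_prop] theorem PTime.natRest {f : α → Word} (hf : PTime f) : PTime fun a => natRest (f a) :=
  (PTime.rdRun hf).fst.tail.tail

@[fun_prop] theorem PTime.intVal {f : α → Word} (hf : PTime f) : PTime fun a => intVal (f a) := by
  unfold PT.intVal; fun_prop

@[fun_prop] theorem PTime.intRest {f : α → Word} (hf : PTime f) : PTime fun a => intRest (f a) :=
  PTime.natRest hf.tail

/-- Iterating a length-decreasing polynomial-time word function. -/
theorem PTime.iterate {skip : Word → Word} (hs : PTime skip)
    (hl : ∀ x, (skip x).length ≤ x.length) {f : α → Word} {k : α → ℕ} (hf : PTime f) (hk : PU k) :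
    PTime fun a => skip^[k a] (f a) :=
  PTime.loop (fun a j => skip^[j] (f a)) (fun _ s _ => skip s) hk (by simpa using hf)
    (hs.comp (by fun_prop)) (fun a j _ => iterate_succ_apply' _ _ _) hf.sz
    (fun a j _ => by simpa using length_iterate_le hl j (f a))

/-- A binary number capped by a unary one is unary. -/
theorem PU.min_right {k n : α → ℕ} (hk : PTime k) (hn : PU n) : PU fun a => min (k a) (n a) :=
  PU.of_le (f := fun a => min (k a) (n a))
    (PTime.congr (f := fun a => if k a ≤ n a then k a else n a)
      (by have := hn.ptime; fun_prop) fun a => by rw [min_def]) hn fun a => min_le_right _ _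

/-- Skipping a number of records given in binary (capped by the length of the word). -/
theorem PTime.iterate_min {skip : Word → Word} (hs : PTime skip)
    (hl : ∀ x, (skip x).length ≤ x.length) {f g : α → Word} {k : α → ℕ} (hf : PTime f)
    (hg : PTime g) (hk : PTime k) : PTime fun a => skip^[min (k a) (g a).length] (f a) :=
  PTime.iterate hs hl hf (PU.min_right hk (PU.length hg))

end

end Crest.Agent.PT
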